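import Crest.Agent.X212.Hz56.Top

/-!
# X212 / Hz56, part Inst (helper56): what `H1 G S` is used for

* `H1.exists_glob` : local objects that form a `G`-torsor of germs come from one global object
  (parallel frames of flat bundles, primitives, lifts, unit sections);
* `H1.lift` (regular coverings), `H1.lift_exp`, `H1.log`;
* `H1.unit_sec`, `H1.unit_sec_smooth` : real line fields have unit sections;
* holonomy along circles: `IsHol`, `exists_hol`, `IsHol.tr`, `cir m`.
-/

set_option autoImplicit false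
set_option linter.unusedSectionVars false

open Set Topology Filter Function
open scoped Real Manifold ContDiff InnerProductSpace

noncomputable section

namespace Crest.Agent.X212.Hz56

open Crest.Agent.X212.Lev33

variable {X Y : Type*} [TopologicalSpace X] [TopologicalSpace Y] {G : Type*} [Group G] {S : Set X}

/-- the cocycle of a torsor of germs -/
theorem exists_coc {F : Type*} [Nonempty F] (act : G → F → F) (hm : ∀ g h f, act (g * h) f = act g (act h f))
    {Gd : X → (X → F) → Prop} (loc : ∀ x ∈ S, ∃ s, ∀ᶠ y in 𝓝[S] x, Gd y s)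
    (tors : ∀ x ∈ S, ∀ s t, Gd x s → Gd x t → ∃ g, ∀ᶠ y in 𝓝[S] x, t y = act g (s y))
    (free : ∀ x ∈ S, ∀ s g h, Gd x s → act g (s x) = act h (s x) → g = h) :
    ∃ (s : X → X → F) (c : X → X → G), Coc S c ∧ (∀ x ∈ S, ∀ᶠ y in 𝓝[S] x, Gd y (s x)) ∧
      ∀ x ∈ S, ∀ᶠ y in 𝓝[S] x, s x y = act (c x y) (s y y) := by
  choose! s hs using loc
  have ex : ∀ x, ∀ y ∈ S, Gd y (s x) → ∃ g, ∀ᶠ z in 𝓝[S] y, s x z = act g (s y z) :=
    fun x y hy h => tors y hy _ _ ((hs y hy).self_of_nhdsWithin hy) h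
  choose! c hc using ex
  refine ⟨s, c, fun x hx => ?_, hs, fun x hx => ?_⟩
  · filter_upwards [hs x hx, self_mem_nhdsWithin, eventually_eventually_nhdsWithin.2 (hs x hx)]
      with y y1 y2 y3
    filter_upwards [hc x y y2 y1, y3, hs y y2, self_mem_nhdsWithin] with z z1 z2 z3 z4
    refine free z z4 _ _ _ ((hs z z4).self_of_nhdsWithin z4) ?_
    rw [hm, ← (hc y z z4 z3).self_of_nhdsWithin z4, ← (hc x z z4 z2).self_of_nhdsWithin z4, z1]
  · filter_upwards [hs x hx, self_mem_nhdsWithin] with y y1 y2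
    exact (hc x y y2 y1).self_of_nhdsWithin y2

/-- **local objects that form a torsor of germs come from a global object** -/
theorem H1.exists_glob (h : H1 G S) {F : Type*} [Nonempty F] (act : G → F → F)
    (hm : ∀ g h f, act (g * h) f = act g (act h f)) {Gd : X → (X → F) → Prop}
    (loc : ∀ x ∈ S, ∃ s, ∀ᶠ y in 𝓝[S] x, Gd y s)
    (tors : ∀ x ∈ S, ∀ s t, Gd x s → Gd x t → ∃ g, ∀ᶠ y in 𝓝[S] x, t y = act g (s y))
    (free : ∀ x ∈ S, ∀ s g h, Gd x s → act g (s x) = act h (s x) → g = h)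
    (germ : ∀ x ∈ S, ∀ s t g, Gd x s → (∀ᶠ y in 𝓝[S] x, t y = act g (s y)) → Gd x t) :
    ∃ t, ∀ x ∈ S, Gd x t := by
  obtain ⟨s, c, h1, h2, h3⟩ := exists_coc act hm loc tors free
  obtain ⟨b, hb⟩ := h c h1
  refine ⟨fun y => act (b y) (s y y), fun x hx =>
    germ x hx (s x) _ (b x) ((h2 x hx).self_of_nhdsWithin hx) ?_⟩
  filter_upwards [hb x hx, h3 x hx] with y y1 y2
  rw [y1, hm, y2]

/-- local primitives with locally constant differences come from one primitive -/
theorem H1.exists_prim {A : Type*} [AddGroup A] (h : H1 (Multiplicative A) S) {g : X → X → A}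
    (hg : ∀ x ∈ S, ∀ᶠ y in 𝓝[S] x, ∀ᶠ z in 𝓝[S] y, g x z - g y z = g x y - g y y) :
    ∃ f : X → A, ∀ x ∈ S, ∃ r, ∀ᶠ y in 𝓝[S] x, f y = r + g x y := by
  have hc : Coc S fun x y => Multiplicative.ofAdd (g x y - g y y) := fun x hx => by
    filter_upwards [hg x hx] with y hy
    filter_upwards [hy] with z hz
    rw [← ofAdd_add, ← hz, sub_add_sub_cancel]
  obtain ⟨b, hb⟩ := h _ hc
  refine ⟨fun y => (b y).toAdd + g y y, fun x hx => ⟨(b x).toAdd, ?_⟩⟩
  filter_upwards [hb x hx] with y hy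
  rw [hy, toAdd_mul, toAdd_ofAdd, add_assoc, sub_add_cancel]

/-- lifts through regular coverings -/
theorem H1.lift (h : H1 G S) {E B : Type*} [TopologicalSpace E] [TopologicalSpace B] [MulAction G E]
    [Nonempty E] {p : E → B} (hp : IsQuotientCoveringMap p G) {f : X → B} (hf : ContinuousOn f S) :
    ∃ g : X → E, ContinuousOn g S ∧ ∀ x ∈ S, p (g x) = f x := by
  have hl := hp.isCoveringMap.isLocalHomeomorph
  have := hp.isCancelSMul
  obtain ⟨t, ht⟩ := h.exists_glob (fun g (e : E) => g • e) mul_smul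
    (Gd := fun x s => ContinuousWithinAt s S x ∧ ∀ᶠ y in 𝓝[S] x, p (s y) = f y)
    (fun x hx => by
      obtain ⟨e, he⟩ := hp.surjective (f x)
      obtain ⟨φ, h1, h2⟩ := hl e
      have h3 : ∀ᶠ y in 𝓝[S] x, f y ∈ φ.target :=
        hf x hx (φ.open_target.mem_nhds (by rw [← he, h2]; exact φ.map_source h1))
      refine ⟨φ.symm ∘ f, ?_⟩
      filter_upwards [h3, eventually_eventually_nhdsWithin.2 h3, self_mem_nhdsWithin] with y y1 y2 y3
      exact ⟨(φ.continuousAt_symm y1).comp_continuousWithinAt (hf y y3),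
        y2.mono fun z hz => by rw [h2]; exact φ.right_inv hz⟩)
    (fun x hx s t hs ht => by
      obtain ⟨g, hg⟩ := hp.apply_eq_iff_mem_orbit.1
        ((ht.2.self_of_nhdsWithin hx).trans (hs.2.self_of_nhdsWithin hx).symm)
      obtain ⟨φ, h1, h2⟩ := hl (t x)
      have c2 : ContinuousWithinAt (fun y => g • s y) S x :=
        (hp.continuous_const_smul g).continuousAt.comp_continuousWithinAt hs.1
      refine ⟨g, ?_⟩
      filter_upwards [ht.1 (φ.open_source.mem_nhds h1),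
        c2 (φ.open_source.mem_nhds (show g • s x ∈ φ.source from (show g • s x = t x from hg) ▸ h1)),
        hs.2, ht.2] with y y1 y2 y3 y4
      refine φ.injOn y1 y2 ?_
      rw [← h2, hp.map_smul, y3, y4])
    (fun x _ s g h _ e => IsCancelSMul.right_cancel _ _ _ e)
    (fun x hx s t g hs e => ⟨((hp.continuous_const_smul g).continuousAt.comp_continuousWithinAt
      hs.1).congr_of_eventuallyEq e (e.self_of_nhdsWithin hx),
        (e.and hs.2).mono fun y hy => by rw [hy.1, hp.map_smul, hy.2]⟩)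
  exact ⟨t, fun x hx => (ht x hx).1, fun x hx => (ht x hx).2.self_of_nhdsWithin hx⟩

theorem H1.of_equiv (h : H1 G S) {G' : Type*} [Group G'] (e : G ≃* G') : H1 G' S := fun c k => by
  obtain ⟨b, hb⟩ := h (fun x y => e.symm (c x y)) fun x hx =>
    (k x hx).mono fun y hy => hy.mono fun z hz => by simp only [hz, map_mul]
  exact ⟨fun x => e (b x), fun x hx => (hb x hx).mono fun y hy => by
    simp only [hy, map_mul, e.apply_symm_apply]⟩

/-- circle valued maps have real lifts -/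
theorem H1.lift_exp (h : H1 (Multiplicative ℤ) S) {f : X → Circle} (hf : ContinuousOn f S) :
    ∃ g : X → ℝ, ContinuousOn g S ∧ ∀ x ∈ S, Circle.exp (g x) = f x := by
  have e : ℤ ≃+ AddSubgroup.zmultiples (2 * π) := AddEquiv.ofBijective
    ((zmultiplesHom ℝ (2 * π)).codRestrict (AddSubgroup.zmultiples (2 * π)) fun n => ⟨n, rfl⟩)
    ⟨fun m n e => smul_left_injective ℤ Real.two_pi_pos.ne' (congrArg Subtype.val e),
      fun ⟨_, n, rfl⟩ => ⟨n, rfl⟩⟩
  exact (h.of_equiv (AddEquiv.toMultiplicative e)).lift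
    Circle.isAddQuotientCoveringMap_exp.toMultiplicative hf

/-- nowhere vanishing functions have logarithms -/
theorem H1.log (h : H1 (Multiplicative ℤ) S) {f : X → ℂ} (hf : ContinuousOn f S)
    (h0 : ∀ x ∈ S, f x ≠ 0) : ∃ g : X → ℂ, ContinuousOn g S ∧ ∀ x ∈ S, f x = Complex.exp (g x) := by
  classical
  let u : X → Circle := fun x => if k : f x = 0 then 1 else
    ⟨f x / ‖f x‖, by simp [Submonoid.unitSphere, k]⟩
  have hu : ∀ x ∈ S, (u x : ℂ) = f x / ‖f x‖ := fun x hx =>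
    congrArg (fun z : Circle => (z : ℂ)) (dif_neg (h0 x hx))
  have cu : ContinuousOn u S := by
    refine IsInducing.subtypeVal.continuousOn_iff.2 ?_
    exact (hf.div (Complex.continuous_ofReal.comp_continuousOn hf.norm) fun x hx => by
      simpa using h0 x hx).congr hu
  obtain ⟨g, g1, g2⟩ := h.lift_exp cu
  refine ⟨fun x => Real.log ‖f x‖ + g x * Complex.I, (Complex.continuous_ofReal.comp_continuousOn
    (hf.norm.log fun x hx => norm_ne_zero_iff.2 (h0 x hx))).add
      ((Complex.continuous_ofReal.comp_continuousOn g1).mul continuousOn_const), fun x hx => ?_⟩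
  have h1 : (‖f x‖ : ℂ) ≠ 0 := by simpa using h0 x hx
  rw [Complex.exp_add, ← Circle.coe_exp, g2 x hx, hu x hx, ← Complex.ofReal_exp,
    Real.exp_log (norm_pos_iff.2 (h0 x hx)), mul_div_cancel₀ _ h1]

section Line

variable {V : Type*} [NormedAddCommGroup V] [NormedSpace ℝ V]

/-- `p` is an idempotent of rank one -/
def R1 (p : V →L[ℝ] V) : Prop := ∃ v, v ≠ 0 ∧ p v = v ∧ ∀ w, ∃ t : ℝ, p w = t • v

theorem R1.fix {p : V →L[ℝ] V} (h : R1 p) (w : V) : p (p w) = p w := by
  obtain ⟨v, -, h1, h2⟩ := h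
  obtain ⟨t, ht⟩ := h2 w
  rw [ht, map_smul, h1]

theorem R1.pm {p : V →L[ℝ] V} (h : R1 p) {a b : V} (ha : p a = a) (hb : p b = b) (na : ‖a‖ = 1)
    (nb : ‖b‖ = 1) : b = a ∨ b = -a := by
  obtain ⟨v, h0, -, h2⟩ := h
  obtain ⟨s, hs⟩ := h2 a
  obtain ⟨t, ht⟩ := h2 b
  rw [ha] at hs
  rw [hb] at ht
  subst hs ht
  have : |t| = |s| := mul_right_cancel₀ (norm_ne_zero_iff.2 h0) (by
    rw [← Real.norm_eq_abs, ← Real.norm_eq_abs, ← norm_smul, ← norm_smul, na, nb])
  rcases abs_eq_abs.1 this with e | e <;> simp [e]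

theorem R1.unit {p : V →L[ℝ] V} (h : R1 p) {w : V} (hw : p w ≠ 0) :
    p (‖p w‖⁻¹ • p w) = ‖p w‖⁻¹ • p w ∧ ‖‖p w‖⁻¹ • p w‖ = 1 :=
  ⟨by rw [map_smul, h.fix], by rw [norm_smul, norm_inv, norm_norm, inv_mul_cancel₀ (norm_ne_zero_iff.2 hw)]⟩

theorem near_eq {p : X → V →L[ℝ] V} (hp : ∀ x ∈ S, R1 (p x)) {x : X} {s t : X → V}
    (cs : ContinuousWithinAt s S x) (ct : ContinuousWithinAt t S x) (e : t x = s x)
    (hs : ∀ᶠ y in 𝓝[S] x, p y (s y) = s y ∧ ‖s y‖ = 1)
    (ht : ∀ᶠ y in 𝓝[S] x, p y (t y) = t y ∧ ‖t y‖ = 1) : ∀ᶠ y in 𝓝[S] x, t y = s y := by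
  have h1 : ∀ᶠ y in 𝓝[S] x, ‖t y - s y‖ < 1 :=
    (ct.sub cs).norm.eventually_lt_const (by simp [e])
  filter_upwards [h1, hs, ht, self_mem_nhdsWithin] with y y1 y2 y3 y4
  refine ((hp y y4).pm y2.1 y3.1 y2.2 y3.2).resolve_right fun k => ?_
  rw [k, ← neg_add', norm_neg, ← two_smul ℝ, norm_smul, y2.2] at y1
  norm_num at y1

/-- **real line fields have unit sections** -/
theorem H1.unit_sec (h : H1 ℤˣ S) {p : X → V →L[ℝ] V} (hc : ContinuousOn p S)
    (hp : ∀ x ∈ S, R1 (p x)) :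
    ∃ s : X → V, ContinuousOn s S ∧ ∀ x ∈ S, p x (s x) = s x ∧ ‖s x‖ = 1 := by
  have nu : ∀ (g : ℤˣ) (v : V), ‖g • v‖ = ‖v‖ := fun g v => by
    rcases Int.units_eq_one_or g with rfl | rfl <;> simp
  have pu : ∀ (g : ℤˣ) (q : V →L[ℝ] V) (v : V), q (g • v) = g • q v := fun g q v => by
    rcases Int.units_eq_one_or g with rfl | rfl <;> simp
  obtain ⟨t, ht⟩ := h.exists_glob (fun g (v : V) => g • v) mul_smul
    (Gd := fun x s => ContinuousWithinAt s S x ∧ ∀ᶠ y in 𝓝[S] x, p y (s y) = s y ∧ ‖s y‖ = 1)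
    (fun x hx => by
      obtain ⟨v, v0, v1, -⟩ := hp x hx
      have c1 : ContinuousOn (fun y => p y v) S := hc.clm_apply continuousOn_const
      have h3 : ∀ᶠ y in 𝓝[S] x, p y v ≠ 0 := (c1 x hx).eventually_ne (v1.trans_ne v0)
      refine ⟨fun y => ‖p y v‖⁻¹ • p y v, ?_⟩
      filter_upwards [h3, eventually_eventually_nhdsWithin.2 h3, self_mem_nhdsWithin] with y y1 y2 y3
      exact ⟨((c1 y y3).norm.inv₀ (norm_ne_zero_iff.2 y1)).smul (c1 y y3),
        (y2.and self_mem_nhdsWithin).mono fun z hz => (hp z hz.2).unit hz.1⟩)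
    (fun x hx s t hs ht => by
      have a := hs.2.self_of_nhdsWithin hx
      have b := ht.2.self_of_nhdsWithin hx
      rcases (hp x hx).pm a.1 b.1 a.2 b.2 with e | e
      · exact ⟨1, (near_eq hp hs.1 ht.1 e hs.2 ht.2).mono fun y hy => by simpa using hy⟩
      · exact ⟨-1, (near_eq hp hs.1.neg ht.1 e (hs.2.mono fun y hy => by simpa using hy) ht.2).mono
          fun y hy => by simpa using hy⟩)
    (fun x hx s g h hs e => by
      have a := (hs.2.self_of_nhdsWithin hx).2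
      have n : ∀ v : V, ‖v‖ = 1 → v ≠ -v := fun v hv k => by
        rw [eq_neg_iff_add_eq_zero, ← two_smul ℝ, smul_eq_zero] at k
        rcases k with k | k
        · norm_num at k
        · simp [k] at hv
      rcases Int.units_eq_one_or g with rfl | rfl <;> rcases Int.units_eq_one_or h with rfl | rfl
      · rfl
      · exact absurd (by simpa using e) (n _ a)
      · exact absurd (by simpa using e.symm) (n _ a)
      · rfl)
    (fun x hx s t g hs e => ⟨(hs.1.const_smul g).congr_of_eventuallyEq e (e.self_of_nhdsWithin hx),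
      (e.and hs.2).mono fun y hy => by rw [hy.1, pu, nu, hy.2.1]; exact ⟨rfl, hy.2.2⟩⟩)
  exact ⟨t, fun x hx => (ht x hx).1, fun x hx => (ht x hx).2.self_of_nhdsWithin hx⟩

end Line

/-- the smooth version -/
theorem H1.unit_sec_smooth {E H M : Type*} [NormedAddCommGroup E] [NormedSpace ℝ E] [TopologicalSpace H]
    {I : ModelWithCorners ℝ E H} [TopologicalSpace M] [ChartedSpace H M] {V : Type*}
    [NormedAddCommGroup V] [InnerProductSpace ℝ V] {U : Set M} (h : H1 ℤˣ U) {p : M → V →L[ℝ] V}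
    (hc : ContMDiffOn I 𝓘(ℝ, V →L[ℝ] V) ∞ p U) (hp : ∀ x ∈ U, R1 (p x)) :
    ∃ s : M → V, ContMDiffOn I 𝓘(ℝ, V) ∞ s U ∧ ∀ x ∈ U, p x (s x) = s x ∧ ‖s x‖ = 1 := by
  obtain ⟨s, h1, h2⟩ := h.unit_sec hc.continuousOn hp
  refine ⟨s, fun x hx => ?_, h2⟩
  have c1 : ContMDiffOn I 𝓘(ℝ, V) ∞ (fun y => p y (s x)) U := hc.clm_apply contMDiffOn_const
  have n0 : p x (s x) ≠ 0 := by rw [(h2 x hx).1, ← norm_ne_zero_iff, (h2 x hx).2]; exact one_ne_zero
  have c2 : ContMDiffWithinAt I 𝓘(ℝ, V) ∞ (fun y => ‖p y (s x)‖⁻¹ • p y (s x)) U x :=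
    (((contDiffAt_norm ℝ n0).inv (norm_ne_zero_iff.2 n0)).smul contDiffAt_id).contMDiffAt.comp_contMDiffWithinAt
      x (c1 x hx)
  have e := near_eq hp c2.continuousWithinAt (h1 x hx) (by simp [(h2 x hx).1, (h2 x hx).2])
    ((((c1 x hx).continuousWithinAt.eventually_ne n0).and self_mem_nhdsWithin).mono
      fun z hz => (hp z hz.2).unit hz.1) (eventually_nhdsWithin_of_forall h2)
  exact c2.congr_of_eventuallyEq e (e.self_of_nhdsWithin hx)

/-! ### holonomy along circles -/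

/-- `m` is (up to conjugation) the holonomy of the cocycle `d` on the circle -/
def IsHol (d : Circle → Circle → G) (m : G) : Prop :=
  ∃ B : ℝ → G, Prim univ (pb Circle.exp d) B ∧ ∀ t, B (t + 2 * π) = m * B t

variable {d d' : Circle → Circle → G} {m m' : G}

theorem prim_shift {B : ℝ → G} (h : Prim univ (pb Circle.exp d) B) (t : ℝ) :
    B (t + 2 * π) = B (2 * π) * (B 0)⁻¹ * B t := by
  have h' : Prim univ (pb Circle.exp d) fun t => B (t + 2 * π) :=
    (h.comp (f := fun t : ℝ => t + 2 * π) (by fun_prop) (mapsTo_univ _ _)).congr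
      (geq_of_eq fun x _ y _ => by simp [pb])
  simpa using h.uniq h' isPreconnected_univ (mem_univ 0) (mem_univ t)

theorem exists_hol (h : Coc univ d) : ∃ m, IsHol d m :=
  let ⟨B, hB⟩ := h1_convex convex_univ _ (h.comp Circle.exp.continuous.continuousOn (mapsTo_univ _ univ))
  ⟨_, B, hB, prim_shift hB⟩

theorem IsHol.congr (h : IsHol d m) (e : ∀ x y, d x y = d' x y) : IsHol d' m := by
  obtain rfl : d = d' := funext fun x => funext (e x)
  exact h

theorem shift_zpow {B : ℝ → G} (h : ∀ t, B (t + 2 * π) = m * B t) (n : ℤ) (t : ℝ) :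
    B (t + n * (2 * π)) = m ^ n * B t := by
  induction n using Int.induction_on with
  | zero => simp
  | succ n ih => rw [Int.cast_add, add_mul, Int.cast_one, one_mul, ← add_assoc, h, ih, add_comm,
      zpow_add, zpow_one, mul_assoc]
  | pred n ih =>
    have := h (t + ((-(n : ℤ) - 1 : ℤ) : ℝ) * (2 * π))
    rw [show t + ((-(n : ℤ) - 1 : ℤ) : ℝ) * (2 * π) + 2 * π = t + ((-(n : ℤ) : ℤ) : ℝ) * (2 * π) by
      push_cast; ring, ih] at this
    rw [sub_eq_neg_add (-(n : ℤ)), zpow_add, mul_assoc, this, zpow_neg_one, inv_mul_cancel_left,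
      ← sub_eq_neg_add]

theorem IsHol.tr (h : IsHol d 1) : Tr univ d := by
  obtain ⟨B, h1, h2⟩ := h
  obtain ⟨b, hb, -⟩ := (op_exp isOpen_univ).desc h1 fun s _ t _ e => by
    obtain ⟨n, rfl⟩ := Circle.exp_eq_exp.1 e
    rw [shift_zpow h2, one_zpow, one_mul]
  exact ⟨b, by rwa [image_univ, Circle.exp_surjective.range_eq] at hb⟩

theorem IsHol.conj (h : IsHol d m) (h' : IsHol d m') : IsConj m m' := by
  obtain ⟨B, h1, h2⟩ := h
  obtain ⟨B', h1', h2'⟩ := h'
  have e := h1.uniq h1' isPreconnected_univ (mem_univ 0) (mem_univ (0 + 2 * π))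
  rw [h2, h2'] at e
  exact isConj_iff.2 ⟨B' 0 * (B 0)⁻¹, by
    rw [eq_mul_inv_of_mul_eq e]; group⟩

theorem Tr.isHol (h : Tr univ d) : IsHol d 1 :=
  let ⟨b, hb⟩ := h
  ⟨_, hb.comp Circle.exp.continuous.continuousOn (mapsTo_univ _ univ), fun t => by simp⟩

theorem IsHol.tr_iff (h : IsHol d m) : Tr univ d ↔ m = 1 :=
  ⟨fun k => isConj_one_left.1 (h.conj k.isHol), fun e => (e ▸ h).tr⟩

/-- the cocycle on the circle with holonomy `m` -/
def cir (m : G) (z w : Circle) : G :=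
  (m ^ ⌊(z : ℂ).arg / (2 * π)⌋)⁻¹ * m ^ ⌊((z : ℂ).arg + ((w / z : Circle) : ℂ).arg) / (2 * π)⌋

theorem floor_shift (t : ℝ) (n : ℤ) : ⌊(t + n * (2 * π)) / (2 * π)⌋ = n + ⌊t / (2 * π)⌋ := by
  rw [add_div, mul_div_cancel_right₀ _ Real.two_pi_pos.ne', Int.floor_add_intCast, add_comm]

theorem prim_cir (m : G) : Prim univ (pb Circle.exp (cir m)) fun t => m ^ ⌊t / (2 * π)⌋ := by
  intro t _
  rw [nhdsWithin_univ]
  filter_upwards [Ioo_mem_nhds (show t - π < t by linarith [Real.pi_pos])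
    (show t < t + π by linarith [Real.pi_pos])] with s hs
  obtain ⟨n, hn⟩ := Circle.exp_eq_exp.1 (Circle.exp_arg (Circle.exp t))
  have : ((Circle.exp s / Circle.exp t : Circle) : ℂ).arg = s - t := by
    rw [← Circle.exp_sub, Circle.arg_exp] <;> linarith [hs.1, hs.2]
  simp only [pb, cir]
  rw [this, hn, show t + n * (2 * π) + (s - t) = s + n * (2 * π) by ring, floor_shift, floor_shift,
    zpow_add, zpow_add]
  group

theorem isHol_cir (m : G) : IsHol (cir m) m := ⟨_, prim_cir m, fun t => by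
  have := floor_shift t 1
  rw [Int.cast_one, one_mul] at this
  rw [this, zpow_add, zpow_one]⟩

theorem Op.coc {q : Y → X} {T : Set Y} (h : Op q T) {c : X → X → G} (k : Coc T (pb q c)) :
    Coc (q '' T) c := by
  rintro _ ⟨x, hx, rfl⟩
  rw [← h x hx, eventually_map]
  filter_upwards [k x hx, self_mem_nhdsWithin] with y h1 h2
  rw [← h y h2, eventually_map]
  exact h1

theorem coc_cir (m : G) : Coc univ (cir m) := by
  have := (op_exp isOpen_univ).coc (prim_cir m).coc
  rwa [image_univ, Circle.exp_surjective.range_eq] at this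

end Crest.Agent.X212.Hz56
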