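import Crest.Agent.X212.Lev33.Coc

/-!
# X212 / Hz56, part Top (helper56): triviality of germ cocycles

On top of `Lev33.Coc` (any group `G`).
* `Tr S c`, `H1 G S`; open unions; `Op q T` (descent, push-forward, transport of `H1`);
* deformations, retracts, convex factors;
* `Prim.ext_dense` (a primitive extends over a locally non-separating set), `Coc.ext`, `tr_of_ext`;
* `tr_side` (the sides of a separating band), `tr_circle_prod`, `h1_punct`, `h1_sphere`.
-/

set_option autoImplicit false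
set_option linter.unusedSectionVars false

open Set Topology Filter Function
open scoped Real

namespace Crest.Agent.X212.Hz56

open Crest.Agent.X212.Lev33

variable {X Y Z : Type*} [TopologicalSpace X] [TopologicalSpace Y] [TopologicalSpace Z]
  {G : Type*} [Group G]

/-- pull-back of a cocycle -/
abbrev pb (f : Y → X) (c : X → X → G) : Y → Y → G := fun x y => c (f x) (f y)

/-- `c` has a primitive on `S` -/
def Tr (S : Set X) (c : X → X → G) : Prop := ∃ b, Prim S c b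

variable (G) in
/-- every `G`-cocycle on `S` is trivial -/
def H1 (S : Set X) : Prop := ∀ c : X → X → G, Coc S c → Tr S c

variable {S U V : Set X} {T : Set Y} {c c' : X → X → G} {b b' : X → G}

theorem Tr.mono (h : Tr S c) (hU : U ⊆ S) : Tr U c := let ⟨b, hb⟩ := h; ⟨b, hb.mono hU⟩

theorem Tr.congr (h : Tr S c) (e : Geq S c c') : Tr S c' := let ⟨b, hb⟩ := h; ⟨b, hb.congr e⟩

theorem geq_of_eq (e : ∀ x ∈ S, ∀ y ∈ S, c x y = c' x y) : Geq S c c' := fun x hx => by
  filter_upwards [self_mem_nhdsWithin] with y hy using e x hx y hy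

theorem Tr.comp (h : Tr S c) {f : Y → X} (hf : ContinuousOn f T) (hm : MapsTo f T S) :
    Tr T (pb f c) := let ⟨_, hb⟩ := h; ⟨_, hb.comp hf hm⟩

theorem tr_empty : Tr (∅ : Set X) c := ⟨1, fun _ h => h.elim⟩

theorem tr_const (h : Coc S c) {x : X} (hx : x ∈ S) : Tr T (pb (fun _ : Y => x) c) :=
  ⟨1, fun _ _ => Eventually.of_forall fun _ => by simp [pb, h.self hx]⟩

/-- a primitive with a prescribed value -/
theorem Tr.exists_eq (h : Tr S c) (x : X) (g : G) : ∃ b, Prim S c b ∧ b x = g :=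
  let ⟨b, hb⟩ := h; ⟨_, hb.mul_left (g * (b x)⁻¹), by simp⟩

theorem prim_of_loc (h : ∀ x ∈ S, ∃ O ∈ 𝓝 x, Prim (S ∩ O) c b) : Prim S c b := fun x hx => by
  obtain ⟨O, hO, hp⟩ := h x hx
  have := hp x ⟨hx, mem_of_mem_nhds hO⟩
  rwa [← nhdsWithin_restrict' S hO] at this

theorem prim_open (hU : IsOpen U) : Prim U c b ↔ ∀ x ∈ U, ∀ᶠ y in 𝓝 x, b y = b x * c x y :=
  forall₂_congr fun x hx => by rw [hU.nhdsWithin_eq hx]

theorem prim_union (hU : IsOpen U) (hV : IsOpen V) (h : Prim U c b) (h' : Prim V c b) :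
    Prim (U ∪ V) c b := (prim_open (hU.union hV)).2 fun x hx =>
  hx.elim ((prim_open hU).1 h x) ((prim_open hV).1 h' x)

theorem Prim.eqOn (h : Prim S c b) (h' : Prim S c b') (hs : IsPreconnected S) {x : X} (hx : x ∈ S)
    (e : b' x = b x) : EqOn b' b S := fun y hy => by
  rw [h.uniq h' hs hx hy, e, mul_inv_cancel, one_mul]

/-- two primitives that agree on an open overlap glue -/
theorem prim_glue (hU : IsOpen U) (hV : IsOpen V) (h : Prim U c b) (h' : Prim V c b')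
    (e : EqOn b b' (U ∩ V)) : ∃ d, Prim (U ∪ V) c d ∧ EqOn d b U ∧ EqOn d b' V := by
  classical
  have e1 : EqOn (fun x => if x ∈ U then b x else b' x) b U := fun x hx => if_pos hx
  have e2 : EqOn (fun x => if x ∈ U then b x else b' x) b' V := fun x hx => by
    by_cases k : x ∈ U
    exacts [(if_pos k).trans (e ⟨k, hx⟩), if_neg k]
  exact ⟨_, prim_union hU hV (h.congr' e1) (h'.congr' e2), e1, e2⟩

/-- extension of a primitive over an open set with connected overlap -/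
theorem Prim.ext_union (hU : IsOpen U) (hV : IsOpen V) (h : Prim U c b) (h' : Tr V c)
    (hc : IsPreconnected (U ∩ V)) : ∃ d, Prim (U ∪ V) c d ∧ EqOn d b U := by
  rcases (U ∩ V).eq_empty_or_nonempty with e | ⟨x, hx⟩
  · obtain ⟨b', hb⟩ := h'
    obtain ⟨d, h1, h2, -⟩ := prim_glue hU hV h hb (by rw [e]; exact eqOn_empty _ _)
    exact ⟨d, h1, h2⟩
  · obtain ⟨b', hb, e⟩ := h'.exists_eq x (b x)
    obtain ⟨d, h1, h2, -⟩ := prim_glue hU hV h hb
      (Prim.eqOn (hb.mono inter_subset_right) (h.mono inter_subset_left) hc hx e.symm)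
    exact ⟨d, h1, h2⟩

theorem Tr.union (hU : IsOpen U) (hV : IsOpen V) (h : Tr U c) (h' : Tr V c)
    (hc : IsPreconnected (U ∩ V)) : Tr (U ∪ V) c :=
  let ⟨_, hb⟩ := h; let ⟨d, hd, _⟩ := Prim.ext_union hU hV hb h' hc; ⟨d, hd⟩

theorem H1.union (hU : IsOpen U) (hV : IsOpen V) (h : H1 G U) (h' : H1 G V)
    (hc : IsPreconnected (U ∩ V)) : H1 G (U ∪ V) := fun c k =>
  (h c (k.mono subset_union_left)).union hU hV (h' c (k.mono subset_union_right)) hc

theorem H1.tr (h : H1 G S) (k : Coc U c) (hS : S ⊆ U) : Tr S c := h c (k.mono hS)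

/-- pairwise disjoint open sets -/
theorem tr_iUnion {ι : Type*} {W : ι → Set X} (ho : ∀ i, IsOpen (W i))
    (hd : Pairwise (Disjoint on W)) (h : ∀ i, Tr (W i) c) : Tr (⋃ i, W i) c := by
  classical
  choose s hs using h
  refine ⟨fun x => if k : ∃ i, x ∈ W i then s k.choose x else 1,
    (prim_open (isOpen_iUnion ho)).2 fun x hx => ?_⟩
  obtain ⟨i, hi⟩ := mem_iUnion.1 hx
  refine (prim_open (ho i)).1 ((hs i).congr' fun y hy => ?_) x hi
  have k : ∃ i, y ∈ W i := ⟨i, hy⟩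
  have : k.choose = i := by_contra fun n => disjoint_left.1 (hd n) k.choose_spec hy
  rw [dif_pos k, this]

/-! ### descent and push-forward -/

/-- `q` maps neighbourhoods in `T` onto neighbourhoods in `q '' T` -/
def Op (q : Y → X) (T : Set Y) : Prop := ∀ y ∈ T, map q (𝓝[T] y) = 𝓝[q '' T] (q y)

variable {q : Y → X}

theorem Op.continuousOn (h : Op q T) : ContinuousOn q T := fun y hy =>
  (h y hy).le.trans nhdsWithin_le_nhds

theorem op_of_isEmbedding (h : IsEmbedding q) (T : Set Y) : Op q T := fun y _ =>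
  h.map_nhdsWithin_eq T y

theorem op_of_map (hT : IsOpen T) (h : ∀ y ∈ T, map q (𝓝 y) = 𝓝 (q y)) : Op q T := fun y hy => by
  rw [hT.nhdsWithin_eq hy, h y hy, nhdsWithin_eq_nhds.2]
  rw [← h y hy]
  exact image_mem_map (hT.mem_nhds hy)

theorem op_of_pd (e : OpenPartialHomeomorph Y X) (h : T ⊆ e.source) : Op e T := fun y hy => by
  rw [e.map_nhdsWithin_eq (h hy), inter_eq_right.2 h]

theorem Op.prodMap {W : Type*} [TopologicalSpace W] {r : W → Z} {R : Set W} (h : Op q T)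
    (h' : Op r R) : Op (Prod.map q r) (T ×ˢ R) := fun p hp => by
  obtain ⟨y, w⟩ := p
  rw [nhdsWithin_prod_eq, ← Filter.prod_map_map_eq', h _ hp.1, h' _ hp.2, prodMap_image_prod,
    Prod.map_apply, nhdsWithin_prod_eq]

theorem op_id (S : Set X) : Op id S := op_of_isEmbedding IsEmbedding.id S

theorem Op.desc (h : Op q T) {B : Y → G} (hB : Prim T (pb q c) B)
    (e : ∀ x ∈ T, ∀ y ∈ T, q x = q y → B x = B y) :
    ∃ b, Prim (q '' T) c b ∧ ∀ y ∈ T, b (q y) = B y := by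
  classical
  let b : X → G := fun p => if k : p ∈ q '' T then B k.choose else 1
  have k : ∀ y ∈ T, b (q y) = B y := fun y hy => by
    have k : q y ∈ q '' T := mem_image_of_mem q hy
    simp only [b, dif_pos k]
    exact e _ k.choose_spec.1 _ hy k.choose_spec.2
  refine ⟨b, ?_, k⟩
  rintro _ ⟨y, hy, rfl⟩
  rw [← h y hy, eventually_map]
  filter_upwards [hB y hy, self_mem_nhdsWithin] with z h1 h2
  rw [k z h2, k y hy, h1]

theorem Op.tr (h : Op q T) (hi : InjOn q T) (k : Tr T (pb q c)) : Tr (q '' T) c :=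
  let ⟨_, hB⟩ := k
  let ⟨b, hb, _⟩ := h.desc hB fun _ hx _ hy e => by rw [hi hx hy e]
  ⟨b, hb⟩

theorem Op.push (h : Op q T) (hi : InjOn q T) {d : Y → Y → G} (hd : Coc T d) :
    ∃ c : X → X → G, Coc (q '' T) c ∧ ∀ x ∈ T, ∀ y ∈ T, c (q x) (q y) = d x y := by
  classical
  let c : X → X → G := fun p p' => if k : p ∈ q '' T ∧ p' ∈ q '' T then
    d k.1.choose k.2.choose else 1
  have k : ∀ x ∈ T, ∀ y ∈ T, c (q x) (q y) = d x y := fun x hx y hy => by
    have k : q x ∈ q '' T ∧ q y ∈ q '' T := ⟨mem_image_of_mem q hx, mem_image_of_mem q hy⟩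
    simp only [c, dif_pos k]
    rw [hi k.1.choose_spec.1 hx k.1.choose_spec.2, hi k.2.choose_spec.1 hy k.2.choose_spec.2]
  refine ⟨c, ?_, k⟩
  rintro _ ⟨x, hx, rfl⟩
  rw [← h x hx, eventually_map]
  filter_upwards [hd x hx, self_mem_nhdsWithin] with y h1 h2
  rw [← h y h2, eventually_map]
  filter_upwards [h1, self_mem_nhdsWithin] with z h3 h4
  rw [k x hx z h4, k x hx y h2, k y h2 z h4, h3]

theorem H1.image (h : H1 G T) (ho : Op q T) (hi : InjOn q T) : H1 G (q '' T) := fun _ k =>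
  ho.tr hi (h _ (k.comp ho.continuousOn (mapsTo_image q T)))

theorem H1.of_image (h : H1 G (q '' T)) (ho : Op q T) (hi : InjOn q T) : H1 G T := fun d k => by
  obtain ⟨c, h1, h2⟩ := ho.push hi k
  exact ((h c h1).comp ho.continuousOn (mapsTo_image q T)).congr (geq_of_eq h2)

theorem h1_range_iff (h : IsEmbedding q) : H1 G (range q) ↔ H1 G (univ : Set Y) := by
  rw [← image_univ]
  exact ⟨fun k => k.of_image (op_of_isEmbedding h _) h.injective.injOn,
    fun k => k.image (op_of_isEmbedding h _) h.injective.injOn⟩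

theorem h1_coe_iff : H1 G (univ : Set S) ↔ H1 G S := by
  rw [← h1_range_iff IsEmbedding.subtypeVal, Subtype.range_coe]

theorem h1_homeo (e : Y ≃ₜ X) : H1 G (univ : Set X) ↔ H1 G (univ : Set Y) := by
  rw [← h1_range_iff e.isEmbedding, e.surjective.range_eq]

theorem tr_range_iff (h : IsEmbedding q) : Tr (range q) c ↔ Tr univ (pb q c) :=
  ⟨fun k => k.comp h.continuous.continuousOn fun y _ => mem_range_self y, fun k => by
    rw [← image_univ]; exact (op_of_isEmbedding h _).tr h.injective.injOn k⟩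

/-! ### deformations -/

theorem Tr.homotopy (h : Coc S c) {H : Y × ℝ → X} (hH : ContinuousOn H (T ×ˢ Icc (0 : ℝ) 1))
    (hm : MapsTo H (T ×ˢ Icc (0 : ℝ) 1) S) (k : Tr T (pb (fun y => H (y, 0)) c)) :
    Tr T (pb (fun y => H (y, 1)) c) := let ⟨_, hb⟩ := k; h.homotopy hH hm hb

theorem Tr.of_deform (h : Coc S c) {H : X × ℝ → X} (hH : ContinuousOn H (U ×ˢ Icc (0 : ℝ) 1))
    (hm : MapsTo H (U ×ˢ Icc (0 : ℝ) 1) S) (h1 : ∀ x ∈ U, H (x, 1) = x)
    (k : Tr U (pb (fun y => H (y, 0)) c)) : Tr U c :=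
  (Tr.homotopy h hH hm k).congr (geq_of_eq fun x hx y hy => by simp only [pb, h1 x hx, h1 y hy])

theorem H1.of_deform (h : H1 G T) {f : X → Y} {g : Y → X} (hf : ContinuousOn f S)
    (mf : MapsTo f S T) (hg : ContinuousOn g T) (mg : MapsTo g T S) {H : X × ℝ → X}
    (hH : ContinuousOn H (S ×ˢ Icc (0 : ℝ) 1)) (hm : MapsTo H (S ×ˢ Icc (0 : ℝ) 1) S)
    (h0 : ∀ x ∈ S, H (x, 0) = g (f x)) (h1 : ∀ x ∈ S, H (x, 1) = x) : H1 G S := fun c k =>
  Tr.of_deform k hH hm h1 (((h _ (k.comp hg mg)).comp hf mf).congr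
    (geq_of_eq fun x hx y hy => by simp only [pb, h0 x hx, h0 y hy]))

theorem H1.of_retract (h : H1 G T) {i : X → Y} {r : Y → X} (hi : ContinuousOn i S)
    (mi : MapsTo i S T) (hr : ContinuousOn r T) (mr : MapsTo r T S) (e : ∀ x ∈ S, r (i x) = x) :
    H1 G S := fun c k => ((h _ (k.comp hr mr)).comp hi mi).congr
  (geq_of_eq fun x hx y hy => by simp only [pb, e x hx, e y hy])

section Convex

variable {E : Type*} [AddCommGroup E] [Module ℝ E] [TopologicalSpace E] [ContinuousAdd E]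
  [ContinuousSMul ℝ E] {J : Set E} {t : E}

theorem h1_star (ht : t ∈ J) (hJ : StarConvex ℝ t J) : H1 G J := fun _ k => k.prim_star ht hJ

theorem h1_convex (hJ : Convex ℝ J) : H1 G J := fun _ k => k.prim_convex hJ

theorem tr_prod_star {d : X × E → X × E → G} (hJ : StarConvex ℝ t J)
    (h : Coc (S ×ˢ J) d) (k : Tr S (pb (fun x => (x, t)) d)) : Tr (S ×ˢ J) d :=
  Tr.of_deform h (H := fun p => (p.1.1, (1 - p.2) • t + p.2 • p.1.2)) (by fun_prop)
    (fun p hp => ⟨hp.1.1, hJ hp.1.2 (by linarith [hp.2.2]) hp.2.1 (by ring)⟩) (fun x _ => by simp)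
    ((k.comp continuousOn_fst fun p hp => hp.1).congr (geq_of_eq fun x _ y _ => by simp))

theorem tr_star_prod {d : E × X → E × X → G} (hJ : StarConvex ℝ t J)
    (h : Coc (J ×ˢ S) d) (k : Tr S (pb (fun x => (t, x)) d)) : Tr (J ×ˢ S) d :=
  Tr.of_deform h (H := fun p => ((1 - p.2) • t + p.2 • p.1.1, p.1.2)) (by fun_prop)
    (fun p hp => ⟨hJ hp.1.1 (by linarith [hp.2.2]) hp.2.1 (by ring), hp.1.2⟩) (fun x _ => by simp)
    ((k.comp continuousOn_snd fun p hp => hp.2).congr (geq_of_eq fun x _ y _ => by simp))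

theorem H1.prod_convex (h : H1 G S) (hJ : Convex ℝ J) : H1 G (S ×ˢ J) := fun d k => by
  rcases J.eq_empty_or_nonempty with rfl | ⟨t, ht⟩
  · rw [prod_empty]; exact tr_empty
  · exact tr_prod_star (hJ ht) k (h _ (k.comp (by fun_prop) fun x hx => ⟨hx, ht⟩))

theorem H1.convex_prod (h : H1 G S) (hJ : Convex ℝ J) : H1 G (J ×ˢ S) := fun d k => by
  rcases J.eq_empty_or_nonempty with rfl | ⟨t, ht⟩
  · rw [empty_prod]; exact tr_empty
  · exact tr_star_prod (hJ ht) k (h _ (k.comp (by fun_prop) fun x hx => ⟨ht, hx⟩))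

end Convex

/-! ### locally non-separating sets -/

/-- two primitives that agree on a dense subset agree -/
theorem Prim.eqOn_of_dense (h : Prim S c b) (h' : Prim S c b') (hU : U ⊆ S) (hd : S ⊆ closure U)
    (e : EqOn b' b U) : EqOn b' b S := fun x hx => by
  have : (𝓝[U] x).NeBot := mem_closure_iff_nhdsWithin_neBot.1 (hd hx)
  obtain ⟨y, h1, h2⟩ := ((((h.lco h') x hx).filter_mono (nhdsWithin_mono x hU)).and
    self_mem_nhdsWithin).exists
  simp only [e h2, mul_inv_cancel] at h1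
  exact mul_inv_eq_one.1 h1.symm

theorem inter_subset_closure (hV : IsOpen V) (hd : V ⊆ closure U) : V ⊆ closure (V ∩ U) :=
  fun _ hx => hV.inter_closure ⟨hx, hd hx⟩

/-- **a primitive extends over a locally non-separating set** -/
theorem Prim.ext_dense (hU : IsOpen U) (hd : S ⊆ closure U) (h : Prim U c b)
    (hl : ∀ x ∈ S, x ∉ U → ∃ V, IsOpen V ∧ x ∈ V ∧ V ⊆ S ∧ Tr V c ∧ IsPreconnected (V ∩ U)) :
    ∃ d, Prim (S ∪ U) c d ∧ EqOn d b U := by
  classical
  have k : ∀ x ∈ S, x ∉ U → ∃ V s, IsOpen V ∧ x ∈ V ∧ V ⊆ S ∧ Prim V c s ∧ EqOn s b (V ∩ U) := by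
    intro x hx hxU
    obtain ⟨V, h1, h2, h3, h4, h5⟩ := hl x hx hxU
    obtain ⟨y, hy⟩ := mem_closure_iff_nhds.1 (hd hx) V (h1.mem_nhds h2)
    obtain ⟨s, hs, e⟩ := h4.exists_eq y (b y)
    exact ⟨V, s, h1, h2, h3, hs,
      Prim.eqOn (h.mono inter_subset_right) (hs.mono inter_subset_left) h5 hy e⟩
  choose! V s h1 h2 h3 h4 h5 using k
  have e1 : EqOn (fun x => if x ∈ U then b x else s x x) b U := fun x hx => if_pos hx
  refine ⟨_, prim_of_loc fun x hx => ?_, e1⟩
  by_cases hxU : x ∈ U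
  · exact ⟨U, hU.mem_nhds hxU, (h.congr' e1).mono inter_subset_right⟩
  have hx := hx.resolve_right hxU
  refine ⟨V x, (h1 x hx hxU).mem_nhds (h2 x hx hxU),
    ((h4 x hx hxU).congr' fun y hy => ?_).mono inter_subset_right⟩
  by_cases hyU : y ∈ U
  · exact (if_pos hyU).trans (h5 x hx hxU ⟨hy, hyU⟩).symm
  have hyS := h3 x hx hxU hy
  have ho := (h1 x hx hxU).inter (h1 y hyS hyU)
  refine (if_neg hyU).trans (Prim.eqOn_of_dense ((h4 x hx hxU).mono inter_subset_left)
    ((h4 y hyS hyU).mono inter_subset_right) inter_subset_left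
    (inter_subset_closure ho fun z hz => hd (h3 x hx hxU hz.1)) (fun z hz => ?_) ⟨hy, h2 y hyS hyU⟩)
  exact (h5 y hyS hyU ⟨hz.1.2, hz.2⟩).trans (h5 x hx hxU ⟨hz.1.1, hz.2⟩).symm

theorem Tr.ext_dense (hU : IsOpen U) (hd : S ⊆ closure U) (h : Tr U c)
    (hl : ∀ x ∈ S, x ∉ U → ∃ V, IsOpen V ∧ x ∈ V ∧ V ⊆ S ∧ Tr V c ∧ IsPreconnected (V ∩ U)) :
    Tr S c :=
  let ⟨_, hb⟩ := h; let ⟨d, hd, _⟩ := Prim.ext_dense hU hd hb hl; ⟨d, hd.mono subset_union_left⟩

/-- `U` does not separate small neighbourhoods of `x` -/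
def NSep (U : Set X) (x : X) : Prop :=
  ∀ W ∈ 𝓝 x, ∃ W', IsOpen W' ∧ x ∈ W' ∧ W' ⊆ W ∧ IsPreconnected (W' ∩ U)

/-- the form with small neighbourhoods -/
theorem Tr.ext_nsep (hS : IsOpen S) (hU : IsOpen U) (hd : S ⊆ closure U) (k : Coc S c) (h : Tr U c)
    (hn : ∀ x ∈ S, x ∉ U → NSep U x) : Tr S c := by
  refine h.ext_dense hU hd fun x hx hxU => ?_
  obtain ⟨O, h1, h2, h3⟩ := k.loc hx
  obtain ⟨W, h4, h5, h6, h7⟩ := hn x hx hxU _ ((hS.inter h1).mem_nhds ⟨hx, h2⟩)
  exact ⟨W, h4, h5, h6.trans inter_subset_left, ⟨_, h3.mono h6⟩, h7⟩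

theorem H1.ext_nsep (hS : IsOpen S) (hU : IsOpen U) (hUS : U ⊆ S) (hd : S ⊆ closure U) (h : H1 G U)
    (hn : ∀ x ∈ S, x ∉ U → NSep U x) : H1 G S := fun _ k => (h.tr k hUS).ext_nsep hS hU hd k hn

/-- **a cocycle that is trivial near the removed set extends** -/
theorem Coc.ext (hd : S ⊆ closure U) (h : Coc U c)
    (hn : ∀ x ∈ S, x ∉ U → NSep U x)
    (hl : ∀ x ∈ S, x ∉ U → ∃ V, IsOpen V ∧ x ∈ V ∧ Tr (V ∩ U) c) :
    ∃ d, Coc S d ∧ Geq (S ∩ U) d c := by
  classical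
  have k : ∀ x ∈ S, ∃ V s, IsOpen V ∧ x ∈ V ∧ Prim (V ∩ U) c s ∧ (x ∈ U → s = c x) := by
    intro x hx
    by_cases hxU : x ∈ U
    · obtain ⟨O, h1, h2, h3⟩ := h.loc hxU
      exact ⟨O, c x, h1, h2, by rwa [inter_comm], fun _ => rfl⟩
    · obtain ⟨V, h1, h2, s, h3⟩ := hl x hx hxU
      exact ⟨V, s, h1, h2, h3, fun e => absurd e hxU⟩
  choose! V s h1 h2 h3 h4 using k
  have ex : ∀ x ∈ S, ∀ y ∈ S, y ∈ V x → ∃ g, ∀ᶠ z in 𝓝[U] y, s x z = g * s y z := by
    intro x hx y hy hyV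
    have ho := (h1 x hx).inter (h1 y hy)
    have hl := ((h3 y hy).mono (inter_subset_inter_left U inter_subset_right)).lco
      ((h3 x hx).mono (inter_subset_inter_left U (inter_subset_left (t := V y))))
    by_cases hyU : y ∈ U
    · refine ⟨s x y * (s y y)⁻¹, ?_⟩
      have := hl y ⟨⟨hyV, h2 y hy⟩, hyU⟩
      rw [inter_comm, ← nhdsWithin_restrict' U (ho.mem_nhds ⟨hyV, h2 y hy⟩)] at this
      filter_upwards [this] with z hz
      rw [← hz]; group
    · obtain ⟨W, w1, w2, w3, w4⟩ := hn y hy hyU _ (ho.mem_nhds ⟨hyV, h2 y hy⟩)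
      obtain ⟨z0, hz0⟩ := mem_closure_iff_nhds.1 (hd hy) W (w1.mem_nhds w2)
      refine ⟨s x z0 * (s y z0)⁻¹, ?_⟩
      filter_upwards [mem_nhdsWithin_of_mem_nhds (w1.mem_nhds w2), self_mem_nhdsWithin] with z z1 z2
      rw [← (hl.mono (inter_subset_inter_left U w3)).eq w4 ⟨z1, z2⟩ hz0]; group
  choose! d hd' using ex
  have nb : ∀ y ∈ S, (𝓝[U] y).NeBot := fun y hy => mem_closure_iff_nhdsWithin_neBot.1 (hd hy)
  refine ⟨d, fun x hx => ?_, fun x hx => ?_⟩
  · filter_upwards [mem_nhdsWithin_of_mem_nhds ((h1 x hx).mem_nhds (h2 x hx)), self_mem_nhdsWithin]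
      with y y1 y2
    have e := eventually_eventually_nhds.2 (eventually_nhdsWithin_iff.1 (hd' x hx y y2 y1))
    filter_upwards [mem_nhdsWithin_of_mem_nhds ((h1 x hx).mem_nhds y1),
      mem_nhdsWithin_of_mem_nhds ((h1 y y2).mem_nhds (h2 y y2)), self_mem_nhdsWithin,
      mem_nhdsWithin_of_mem_nhds e] with z z1 z2 z3 z4
    have := nb z z3
    obtain ⟨w, w1, w2, w3⟩ := ((hd' x hx z z3 z1).and ((hd' y y2 z z3 z2).and
      (eventually_nhdsWithin_iff.2 z4))).exists
    rw [w1, w2, ← mul_assoc] at w3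
    exact mul_right_cancel w3
  · filter_upwards [mem_nhdsWithin_of_mem_nhds ((h1 x hx.1).mem_nhds (h2 x hx.1)), self_mem_nhdsWithin,
      (h x hx.2).filter_mono (nhdsWithin_mono x inter_subset_right)] with y y1 y2 y3
    have := nb y y2.1
    obtain ⟨w, w1, w2⟩ := ((hd' x hx.1 y y2.1 y1).and y3).exists
    rw [h4 x hx.1 hx.2, h4 y y2.1 y2.2, w2] at w1
    exact (mul_right_cancel w1).symm

theorem tr_of_ext (hS : H1 G S) (hUS : U ⊆ S) (hd : S ⊆ closure U) (h : Coc U c)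
    (hn : ∀ x ∈ S, x ∉ U → NSep U x)
    (hl : ∀ x ∈ S, x ∉ U → ∃ V, IsOpen V ∧ x ∈ V ∧ Tr (V ∩ U) c) : Tr U c := by
  obtain ⟨d, h1, h2⟩ := Coc.ext hd h hn hl
  rw [inter_eq_right.2 hUS] at h2
  exact ((hS d h1).mono hUS).congr h2

/-- removing a set of codimension at least three -/
theorem H1.remove (hS : H1 G S) (hUS : U ⊆ S) (hd : S ⊆ closure U)
    (hn : ∀ x ∈ S, x ∉ U → NSep U x)
    (hl : ∀ x ∈ S, x ∉ U → ∃ V, IsOpen V ∧ x ∈ V ∧ H1 G (V ∩ U)) : H1 G U := fun _ h =>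
  tr_of_ext hS hUS hd h hn fun x hx k =>
    let ⟨V, h1, h2, h3⟩ := hl x hx k; ⟨V, h1, h2, h3.tr h inter_subset_right⟩

/-- a cocycle that is trivial on the overlap extends by the trivial cocycle -/
theorem Coc.ext_side (hU : IsOpen U) (hV : IsOpen V) (h : Coc U c) (k : Tr (U ∩ V) c) :
    ∃ d, Coc (U ∪ V) d ∧ Geq U d c ∧ Tr V d := by
  classical
  obtain ⟨s, hs⟩ := k
  let s' : X → G := fun y => if y ∈ U then s y else 1
  let d : X → X → G := fun x y => if x ∈ U then c x y else s' y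
  have dU : Geq U d c := fun x hx => Eventually.of_forall fun y => if_pos hx
  have pV : Prim V d s' := (prim_open hV).2 fun x hx => by
    by_cases hxU : x ∈ U
    · filter_upwards [(prim_open (hU.inter hV)).1 hs x ⟨hxU, hx⟩, hU.mem_nhds hxU] with y y1 y2
      simp only [s', d, if_pos hxU, if_pos y2, y1]
    · exact Eventually.of_forall fun y => by simp only [d, s', if_neg hxU, one_mul]
  refine ⟨d, fun x hx => ?_, dU, s', pV⟩
  have key : ∀ W, IsOpen W → W ⊆ U ∪ V → Coc W d → x ∈ W →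
      ∀ᶠ y in 𝓝[U ∪ V] x, ∀ᶠ z in 𝓝[U ∪ V] y, d x z = d x y * d y z := fun W w1 _ w3 w4 => by
    have := w3 x w4
    rw [w1.nhdsWithin_eq w4] at this
    filter_upwards [mem_nhdsWithin_of_mem_nhds this, mem_nhdsWithin_of_mem_nhds (w1.mem_nhds w4)]
      with y y1 y2
    rw [w1.nhdsWithin_eq y2] at y1
    exact y1.filter_mono nhdsWithin_le_nhds
  exact hx.elim (key U hU subset_union_left (h.congr dU.symm)) (key V hV subset_union_right pV.coc)

theorem tr_side (hU : IsOpen U) (hV : IsOpen V) (hS : H1 G (U ∪ V)) (h : Coc U c)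
    (k : Tr (U ∩ V) c) : Tr U c :=
  let ⟨d, h1, h2, _⟩ := Coc.ext_side hU hV h k
  ((hS d h1).mono subset_union_left).congr h2

/-- **the side of a separating band** -/
theorem H1.side (hU : IsOpen U) (hV : IsOpen V) (hS : H1 G (U ∪ V)) (k : H1 G (U ∩ V)) : H1 G U :=
  fun _ h => tr_side hU hV hS h (k.tr h inter_subset_left)

/-! ### circles and spheres -/

theorem op_exp {J : Set ℝ} (hJ : IsOpen J) : Op Circle.exp J :=
  op_of_map hJ fun t _ => isLocalHomeomorph_circleExp.map_nhds_eq t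

/-- trivial on both factors, trivial on the product -/
theorem tr_circle_prod {d : Circle × Y → Circle × Y → G} (hT : IsPreconnected T) {y₀ : Y}
    (h₀ : y₀ ∈ T) (h : Coc (univ ×ˢ T) d) (k₁ : Tr T (pb (fun y => (1, y)) d))
    (k₂ : Tr univ (pb (fun u => (u, y₀)) d)) : Tr (univ ×ˢ T) d := by
  have ho : Op (Prod.map Circle.exp id) ((univ : Set ℝ) ×ˢ T) := (op_exp isOpen_univ).prodMap (op_id T)
  have hi : Prod.map Circle.exp id '' ((univ : Set ℝ) ×ˢ T) = univ ×ˢ T := by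
    rw [prodMap_image_prod, image_univ, Circle.exp_surjective.range_eq, image_id]
  obtain ⟨B, hB⟩ := tr_star_prod (t := (0 : ℝ)) (convex_univ trivial)
    (h.comp ho.continuousOn fun p hp => ⟨trivial, hp.2⟩)
    (k₁.congr (geq_of_eq fun _ _ _ _ => by simp [pb]))
  have hB' : Prim (univ ×ˢ T) (pb (Prod.map Circle.exp id) d) fun p => B (p.1 + 2 * π, p.2) :=
    (hB.comp (f := fun p : ℝ × Y => (p.1 + 2 * π, p.2)) (by fun_prop) fun p hp => ⟨trivial, hp.2⟩).congr
      (geq_of_eq fun x _ y _ => by simp [pb, Prod.map])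
  obtain ⟨b, hb⟩ := k₂
  have e : B (0 + 2 * π, y₀) = B (0, y₀) := by
    have h1 := hb.comp (f := Circle.exp) Circle.exp.continuous.continuousOn (mapsTo_univ _ univ)
    have h2 := hB.comp (T := univ) (f := fun t : ℝ => (t, y₀)) (by fun_prop) fun p _ => ⟨trivial, h₀⟩
    have := h1.uniq h2 isPreconnected_univ (mem_univ 0) (mem_univ (0 + 2 * π))
    simpa [Circle.exp_add_two_pi] using this
  have per : ∀ y ∈ T, Periodic (fun t => B (t, y)) (2 * π) := fun y hy t =>
    Prim.eqOn hB hB' (isPreconnected_univ.prod hT) (x := (0, y₀)) ⟨trivial, h₀⟩ e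
      (show (t, y) ∈ univ ×ˢ T from ⟨trivial, hy⟩)
  obtain ⟨b', h1, -⟩ := ho.desc hB (by
    rintro ⟨t, y⟩ hy ⟨t', y'⟩ - e
    obtain rfl : y = y' := congrArg Prod.snd e
    obtain ⟨m, rfl⟩ := Circle.exp_eq_exp.1 (congrArg Prod.fst e)
    exact (per y hy.2).int_mul m t')
  exact ⟨b', hi ▸ h1⟩

/-- trivial on `{u} × T` for one `u`, trivial on `arc × T` -/
theorem tr_arc_prod {d : Circle × Y → Circle × Y → G} (h : Coc (univ ×ˢ T) d)
    (k : Tr T (pb (fun y => (1, y)) d)) (t : ℝ) :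
    Tr ((Circle.exp '' Ioo (t - 1) (t + 1)) ×ˢ T) d := by
  have ho : Op (Prod.map Circle.exp id) (Ioo (t - 1) (t + 1) ×ˢ T) :=
    (op_exp isOpen_Ioo).prodMap (op_id T)
  have h1 := tr_star_prod (t := (0 : ℝ)) (convex_univ trivial)
    (h.comp (f := Prod.map Circle.exp id) (by fun_prop) fun p hp => ⟨trivial, hp.2⟩)
    (k.congr (geq_of_eq fun _ _ _ _ => by simp [pb]))
  have := ho.tr (((Circle.exp_injOn_Icc (by linarith [Real.pi_gt_three])).mono
    Ioo_subset_Icc_self).prodMap (injOn_id T)) (h1.mono (prod_mono_left (subset_univ _)))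
  rwa [prodMap_image_prod, image_id] at this

section Sphere

variable {E : Type*} [NormedAddCommGroup E] [NormedSpace ℝ E] [FiniteDimensional ℝ E]

theorem star_compl_ray {n : E} (hn : n ≠ 0) :
    StarConvex ℝ (-n) {x | ∀ t : ℝ, 0 ≤ t → x ≠ t • n} := by
  intro y hy a b ha hb hab t ht e
  rcases hb.eq_or_lt with rfl | hb
  · have : (t + a) • n = 0 := by rw [add_smul, ← e]; simp
    exact hn ((smul_eq_zero.1 this).resolve_left (by linarith))
  · refine hy (b⁻¹ * (t + a)) (by positivity) ?_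
    rw [mul_smul, add_smul, ← e]
    simp [smul_smul, inv_mul_cancel₀ hb.ne']

theorem isOpen_compl_ray {n : E} (hn : n ≠ 0) : IsOpen {x : E | ∀ t : ℝ, 0 ≤ t → x ≠ t • n} := by
  have : {x : E | ∀ t : ℝ, 0 ≤ t → x ≠ t • n} = ((fun t : ℝ => t • n) '' Ici 0)ᶜ := by
    ext x; simp [eq_comm]
  rw [this]
  exact ((isClosedEmbedding_smul_left hn).isClosedMap _ isClosed_Ici).isOpen_compl

/-- punctured spaces of dimension at least three -/
theorem h1_punct (h : 2 < Module.finrank ℝ E) : H1 G ({0}ᶜ : Set E) := by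
  have : Nontrivial E := Module.finrank_pos_iff.1 (by omega : 0 < Module.finrank ℝ E)
  obtain ⟨n, hn⟩ := exists_ne (0 : E)
  have hn' := neg_ne_zero.2 hn
  have m : ∀ n : E, n ≠ 0 → -n ∈ {x : E | ∀ t : ℝ, 0 ≤ t → x ≠ t • n} := fun n hn t ht e => by
    have : (t + 1) • n = 0 := by rw [add_smul, ← e]; simp
    exact hn ((smul_eq_zero.1 this).resolve_left (by linarith))
  have := H1.union (G := G) (isOpen_compl_ray hn) (isOpen_compl_ray hn')
    (h1_star (m n hn) (star_compl_ray hn)) (h1_star (m _ hn') (star_compl_ray hn')) (by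
      have hr : 1 < Module.rank ℝ (E ⧸ (ℝ ∙ n)) := by
        have := Submodule.finrank_quotient_add_finrank (ℝ ∙ n)
        rw [finrank_span_singleton hn] at this
        rw [← Module.finrank_eq_rank]
        exact_mod_cast (by omega : 1 < Module.finrank ℝ (E ⧸ (ℝ ∙ n)))
      convert (isConnected_compl_of_one_lt_codim hr).isPreconnected using 1
      ext x
      simp only [mem_inter_iff, mem_ofPred_eq, mem_compl_iff, SetLike.mem_coe,
        Submodule.mem_span_singleton, not_exists]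
      refine ⟨fun k t e => ?_, fun k => ⟨fun t _ e => k t e.symm, fun t _ e => k (-t) (by simp [e])⟩⟩
      rcases le_total 0 t with ht | ht
      · exact k.1 t ht e.symm
      · exact k.2 (-t) (by linarith) (by simp [e]))
  convert this using 1
  ext x
  simp only [mem_compl_iff, mem_singleton_iff, mem_union, mem_ofPred_eq]
  refine ⟨fun hx => by_contra fun k => ?_, fun k e => k.elim (fun k => k 0 le_rfl (by simp [e]))
    fun k => k 0 le_rfl (by simp [e])⟩
  push Not at k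
  obtain ⟨⟨s, hs, e1⟩, t, ht, e2⟩ := k
  have : (s + t) • n = 0 := by rw [add_smul, ← e1]; simp [e2]
  have : s = 0 := by linarith [(smul_eq_zero.1 this).resolve_right hn]
  exact hx (by simp [e1, this])

theorem h1_sphere' (h : 2 < Module.finrank ℝ E) : H1 G (Metric.sphere (0 : E) 1) :=
  (h1_punct h).of_retract (i := id) (r := fun x => ‖x‖⁻¹ • x) continuousOn_id
    (fun x hx e => by simp [show x = 0 from e] at hx)
    ((continuous_norm.continuousOn.inv₀ fun _ hx => norm_ne_zero_iff.2 hx).smul continuousOn_id)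
    (fun x hx => by simp [norm_smul, inv_mul_cancel₀ (norm_ne_zero_iff.2 hx)])
    fun x hx => by simp [mem_sphere_zero_iff_norm.1 hx]

/-- spheres of dimension at least two -/
theorem h1_sphere (h : 2 < Module.finrank ℝ E) : H1 G (univ : Set (Metric.sphere (0 : E) 1)) :=
  h1_coe_iff.2 (h1_sphere' h)

theorem isPreconnected_punct_ball (h : 1 < Module.finrank ℝ E) (r : ℝ) :
    IsPreconnected (Metric.ball (0 : E) r ∩ {0}ᶜ) := by
  rcases le_or_gt r 0 with hr | hr
  · rw [Metric.ball_eq_empty.2 hr, empty_inter]; exact isPreconnected_empty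
  have h1 : 1 < Module.rank ℝ E := by rw [← Module.finrank_eq_rank]; exact_mod_cast h
  have := ((isPreconnected_Ioo (a := 0) (b := r)).prod (isPreconnected_sphere h1 (0 : E) 1)).image
    (fun p : ℝ × E => p.1 • p.2) (by fun_prop)
  convert this using 1
  ext x
  simp only [mem_inter_iff, mem_ball_zero_iff, mem_compl_iff, mem_singleton_iff, mem_image, mem_prod,
    mem_Ioo, mem_sphere_zero_iff_norm]
  constructor
  · rintro ⟨h1, h2⟩
    have := norm_pos_iff.2 h2
    exact ⟨(‖x‖, ‖x‖⁻¹ • x), ⟨⟨this, h1⟩, by simp [norm_smul, inv_mul_cancel₀ this.ne']⟩,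
      by simp [smul_smul, mul_inv_cancel₀ this.ne']⟩
  · rintro ⟨⟨t, y⟩, ⟨⟨h1, h2⟩, h3⟩, rfl⟩
    have : ‖t • y‖ = t := by rw [norm_smul, h3, mul_one, Real.norm_of_nonneg h1.le]
    exact ⟨this.trans_lt h2, norm_pos_iff.1 (h1.trans_eq this.symm)⟩

/-- the zero section of `A × E` does not separate -/
theorem nsep_prod [LocallyConnectedSpace Y] (h : 1 < Module.finrank ℝ E) (y : Y) :
    NSep {p : Y × E | p.2 ≠ 0} (y, 0) := fun W hW => by
  obtain ⟨A, hA, B, hB, hAB⟩ := mem_nhds_prod_iff.1 hW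
  obtain ⟨r, hr, hb⟩ := Metric.mem_nhds_iff.1 hB
  obtain ⟨A', a1, a2, a3, a4⟩ := (locallyConnectedSpace_iff_subsets_isOpen_isConnected.1 ‹_›) y A hA
  refine ⟨A' ×ˢ Metric.ball 0 r, a2.prod Metric.isOpen_ball, ⟨a3, Metric.mem_ball_self hr⟩,
    (prod_mono a1 hb).trans hAB, ?_⟩
  convert a4.isPreconnected.prod (isPreconnected_punct_ball h r) using 1
  ext p
  simp only [mem_inter_iff, mem_prod, mem_ofPred_eq, mem_compl_iff, mem_singleton_iff, and_assoc]

theorem nsep_zero (h : 1 < Module.finrank ℝ E) : NSep ({0}ᶜ : Set E) 0 := fun W hW => by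
  obtain ⟨r, hr, hb⟩ := Metric.mem_nhds_iff.1 hW
  exact ⟨_, Metric.isOpen_ball, Metric.mem_ball_self hr, hb, isPreconnected_punct_ball h r⟩

end Sphere

/-- transport of `NSep` along a chart -/
theorem NSep.pd (e : OpenPartialHomeomorph Y X) {y : Y} (hy : y ∈ e.source) (h : NSep T y)
    (hT : ∀ z ∈ e.source, z ∈ T ↔ e z ∈ U) : NSep U (e y) := fun W hW => by
  obtain ⟨W', w1, w2, w3, w4⟩ := h _ (inter_mem (e.open_source.mem_nhds hy) (e.continuousAt hy hW))
  have hs : W' ⊆ e.source := fun z hz => (w3 hz).1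
  refine ⟨e '' W', e.isOpen_image_of_subset_source w1 hs, mem_image_of_mem _ w2,
    image_subset_iff.2 fun z hz => (w3 hz).2, ?_⟩
  convert w4.image e (e.continuousOn.mono (inter_subset_left.trans hs)) using 1
  ext x
  constructor
  · rintro ⟨⟨z, hz, rfl⟩, k⟩
    exact ⟨z, ⟨hz, (hT z (hs hz)).2 k⟩, rfl⟩
  · rintro ⟨z, hz, rfl⟩
    exact ⟨⟨z, hz.1, rfl⟩, (hT z (hs hz.1)).1 hz.2⟩

theorem NSep.emb (he : IsOpenEmbedding q) [Nonempty Y] {y : Y} (h : NSep (q ⁻¹' U) y) :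
    NSep U (q y) :=
  NSep.pd (he.toOpenPartialHomeomorph q) (mem_univ y) h fun _ _ => Iff.rfl

theorem NSep.inter {x : X} (h : NSep U x) (hV : V ∈ 𝓝 x) : NSep (V ∩ U) x := fun W hW => by
  obtain ⟨W', w1, w2, w3, w4⟩ := h _ (inter_mem hW hV)
  refine ⟨W', w1, w2, w3.trans inter_subset_left, ?_⟩
  rwa [← inter_assoc, inter_eq_left.2 (w3.trans inter_subset_right)]

end Crest.Agent.X212.Hz56
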