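import Crest.Agent.X212.Hz56.Top
import Crest.Agent.X212.Rod53.Band

/-!
# X212 / Hz56, part Rod (helper56): germ cocycles on tubes, exteriors and rod manifolds

* `h1_vert` : vertically convex plane domains;  `tr_punct`, `tr_torus`, `tr_tube` (the meridian normally generates);
* `tr_ov`, `tr_crv`, `h1_ov` : toric regions `T.ov v O`;
* `reg T v J O`, `tr_reg`, `h1_reg`, `h1_time` : regions that contain the exterior.
-/

set_option autoImplicit false
set_option linter.unusedSectionVars false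

open Set Topology Filter Function Metric
open scoped Manifold ContDiff

noncomputable section

namespace Crest.Agent.X212.Hz56

open Crest.Agent.X212.Lev33 Crest.Agent.X212.Glue52 Crest.Agent.X212.Rod53

variable {X Y : Type*} [TopologicalSpace X] [TopologicalSpace Y] {G : Type*} [Group G]

theorem NSep.prod {U : Set X} {V : Set Y} {x : X} {y : Y} (h : NSep U x) (h' : NSep V y) :
    NSep (U ×ˢ V) (x, y) := fun W hW => by
  obtain ⟨A, hA, B, hB, hAB⟩ := mem_nhds_prod_iff.1 hW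
  obtain ⟨A', a1, a2, a3, a4⟩ := h A hA
  obtain ⟨B', b1, b2, b3, b4⟩ := h' B hB
  exact ⟨A' ×ˢ B', a1.prod b1, ⟨a2, b2⟩, (prod_mono a3 b3).trans hAB, by
    rw [prod_inter_prod]; exact a4.prod b4⟩

theorem nsep_univ [LocallyConnectedSpace Y] (y : Y) : NSep univ y := fun W hW => by
  obtain ⟨A, a1, a2, a3, a4⟩ := (locallyConnectedSpace_iff_subsets_isOpen_isConnected.1 ‹_›) y W hW
  exact ⟨A, a2, a3, a1, by rw [inter_univ]; exact a4.isPreconnected⟩

instance : LocallyConnectedSpace Circle :=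
  ChartedSpace.locallyConnectedSpace (EuclideanSpace ℝ (Fin 1)) Circle

theorem nsep_c : NSep ({0}ᶜ : Set ℂ) 0 := nsep_zero (by simp)

/-- vertically convex open sets over a convex set -/
theorem h1_vert {E F : Type*} [NormedAddCommGroup E] [NormedSpace ℝ E] [NormedAddCommGroup F]
    [NormedSpace ℝ F] {O : Set (E × F)} (hO : IsOpen O) (hv : ∀ x, Convex ℝ {y | (x, y) ∈ O})
    (hJ : Convex ℝ (Prod.fst '' O)) : H1 G O ∧ IsPreconnected O := by
  obtain ⟨g, hg⟩ := exists_continuous_forall_mem_convex_of_local_const (X := Prod.fst '' O)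
    (t := fun x => {y | (x.1, y) ∈ O}) (fun x => hv x) (by
      rintro ⟨_, ⟨x, y⟩, h, rfl⟩
      exact ⟨y, (continuous_subtype_val.prodMk continuous_const).continuousAt (hO.mem_nhds h)⟩)
  classical
  let σ : E → F := fun x => if h : x ∈ Prod.fst '' O then g ⟨x, h⟩ else 0
  have hσ : ContinuousOn σ (Prod.fst '' O) := by
    rw [continuousOn_iff_continuous_domRestrict]
    exact g.continuous.congr fun x => show g x = σ x by simp only [σ, dif_pos x.2]
  have hm : ∀ x ∈ Prod.fst '' O, (x, σ x) ∈ O := fun x hx => by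
    simp only [σ, dif_pos hx]; exact hg ⟨x, hx⟩
  have hH : ContinuousOn (fun p : (E × F) × ℝ => (p.1.1, (1 - p.2) • σ p.1.1 + p.2 • p.1.2))
      (O ×ˢ Icc (0 : ℝ) 1) := ContinuousOn.prodMk (by fun_prop) (((by fun_prop : ContinuousOn _ _).smul
    (hσ.comp (by fun_prop) fun p hp => mem_image_of_mem _ hp.1)).add (by fun_prop))
  have hM : MapsTo (fun p : (E × F) × ℝ => (p.1.1, (1 - p.2) • σ p.1.1 + p.2 • p.1.2))
      (O ×ˢ Icc (0 : ℝ) 1) O := fun p hp =>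
    hv p.1.1 (hm _ (mem_image_of_mem _ hp.1)) hp.1 (by linarith [hp.2.2]) hp.2.1 (by ring)
  refine ⟨(h1_convex hJ).of_deform continuousOn_fst (mapsTo_image _ _) (g := fun x => (x, σ x))
    (continuousOn_id.prodMk hσ) hm hH hM (fun x _ => by simp) fun x _ => by simp, ?_⟩
  have h1 := hJ.isPreconnected.image (fun x => (x, σ x)) (continuousOn_id.prodMk hσ)
  have h2 : ∀ p ∈ O, (p.1, σ p.1) ∈ (fun x => (x, σ x)) '' (Prod.fst '' O) := fun p hp =>
    ⟨_, mem_image_of_mem _ hp, rfl⟩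
  refine isPreconnected_of_forall_pair fun p hp q hq => ?_
  have k : ∀ p ∈ O, IsPreconnected (({p.1} : Set E) ×ˢ {y | (p.1, y) ∈ O}) := fun p _ =>
    isPreconnected_singleton.prod (hv _).isPreconnected
  have s : ∀ p : E × F, ({p.1} : Set E) ×ˢ {y | (p.1, y) ∈ O} ⊆ O := by
    rintro p ⟨_, y⟩ ⟨rfl, h⟩; exact h
  have h3 : ∀ p ∈ O, (p.1, σ p.1) ∈ ({p.1} : Set E) ×ˢ {y | (p.1, y) ∈ O} := fun p hp =>
    ⟨rfl, hm _ (mem_image_of_mem _ hp)⟩
  have k1 := (k p hp).union (p.1, σ p.1) (h3 p hp) (h2 p hp) h1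
  have k2 := k1.union (q.1, σ q.1) (Or.inr (h2 q hq)) (h3 q hq) (k q hq)
  exact ⟨_, union_subset (union_subset (s p) (image_subset_iff.2 hm)) (s q),
    Or.inl (Or.inl ⟨rfl, hp⟩), Or.inr ⟨rfl, hq⟩, k2⟩

theorem continuousOn_dir : ContinuousOn dir ({0}ᶜ : Set ℂ) := fun _ h =>
  (contMDiffAt_dir h).continuousAt.continuousWithinAt

/-- the punctured plane -/
theorem tr_punct {d : ℂ → ℂ → G} (h : Coc {0}ᶜ d) (k : Tr univ (pb ((↑) : Circle → ℂ) d)) :
    Tr {0}ᶜ d := by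
  have hd : ContinuousOn (fun p : ℂ × ℝ => (dir p.1 : ℂ)) ({0}ᶜ ×ˢ Icc (0 : ℝ) 1) :=
    continuous_subtype_val.comp_continuousOn (continuousOn_dir.comp continuousOn_fst fun p hp => hp.1)
  refine Tr.of_deform h (H := fun p => ((1 - p.2 + p.2 * ‖p.1‖ : ℝ) : ℂ) * dir p.1)
    (ContinuousOn.mul (by fun_prop) hd) (fun p hp => ?_) (fun x _ => by simp [norm_mul_dir])
    ((k.comp continuousOn_dir (mapsTo_univ _ _)).congr (geq_of_eq fun x _ y _ => by simp [pb]))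
  have h1 := norm_pos_iff.2 hp.1
  refine mul_ne_zero (Complex.ofReal_ne_zero.2 (ne_of_gt ?_)) (Circle.coe_ne_zero _)
  rcases hp.2.1.eq_or_lt with e | e
  · rw [← e]; simp
  · nlinarith [hp.2.2]

theorem isPreconnected_c : IsPreconnected ({0}ᶜ : Set ℂ) :=
  (isConnected_compl_singleton_of_one_lt_rank (by simp) 0).isPreconnected

/-- the curve of slope `a` on the torus of radius `r` -/
def crv (a : Z2) (r : ℝ) (x : Circle) : Circle × ℂ := (x ^ a.1, (r : ℂ) * (x ^ a.2 : Circle))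

theorem continuous_crv (a : Z2) (r : ℝ) : Continuous (crv a r) :=
  (continuous_zpow _).prodMk (continuous_const.mul (continuous_subtype_val.comp (continuous_zpow _)))

theorem crv_ne (a : Z2) {r : ℝ} (hr : 0 < r) (x : Circle) : (crv a r x).2 ≠ 0 :=
  mul_ne_zero (Complex.ofReal_ne_zero.2 hr.ne') (Circle.coe_ne_zero _)

theorem norm_crv (a : Z2) {r : ℝ} (hr : 0 < r) (x : Circle) : ‖(crv a r x).2‖ = r := norm_polar hr.le _

theorem gl_left (a b : Z2) {r : ℝ} (hr : 0 < r) (x : Circle) : gl a b (1, r * x) = crv a r x := by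
  rw [gl_polar a b x 1 hr]; simp [crv]

theorem gl_right (a b : Z2) {r : ℝ} (hr : 0 < r) (u : Circle) :
    gl a b (u, r * (1 : Circle)) = crv b r u := by
  rw [gl_polar a b 1 u hr]; simp [crv]

theorem continuousOn_gl (a b : Z2) : ContinuousOn (gl a b) (univ ×ˢ {0}ᶜ) := fun _ h =>
  (cm_gl a b h.2).continuousAt.continuousWithinAt

/-- the punctured solid torus -/
theorem tr_torus {d : Circle × ℂ → Circle × ℂ → G} (h : Coc (univ ×ˢ {0}ᶜ) d) {a b : Z2} (hu : Uni a b)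
    (k₁ : Tr univ (pb (crv a 1) d)) (k₂ : Tr univ (pb (crv b 1) d)) : Tr (univ ×ˢ {0}ᶜ) d := by
  have h' := h.comp (continuousOn_gl a b) fun w hw => ⟨trivial, gl_ne.2 hw.2⟩
  have h1 := tr_circle_prod isPreconnected_c (y₀ := 1) one_ne_zero h'
    (tr_punct (h'.comp (f := fun y => (1, y)) (by fun_prop) fun y hy => ⟨trivial, hy⟩)
      (k₁.congr (geq_of_eq fun x _ y _ => by simp only [pb, ← gl_left a b one_pos]; simp)))
    (k₂.congr (geq_of_eq fun x _ y _ => by simp only [pb, ← gl_right a b one_pos]; simp))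
  exact (h1.comp (continuousOn_gl _ _) (f := glI a b) fun w hw => ⟨trivial, gl_ne.2 hw.2⟩).congr
    (geq_of_eq fun x hx y hy => by simp only [pb, gl_glI hu hx.2, gl_glI hu hy.2])

/-- **a cocycle on a knot exterior in a simply connected space that is trivial on the meridian is trivial** -/
theorem tr_tube {τ : Circle × ℂ → X} (hτ : IsOpenEmbedding τ) (hX : H1 G (univ : Set X))
    {c : X → X → G} (h : Coc {p | ∀ u, τ (u, 0) ≠ p} c)
    (k : Tr univ (pb (fun x : Circle => τ (1, x)) c)) : Tr {p | ∀ u, τ (u, 0) ≠ p} c := by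
  have m : ∀ w, τ w ∈ {p | ∀ u, τ (u, 0) ≠ p} ↔ w.2 ≠ 0 := fun w =>
    ⟨fun h e => h w.1 (by rw [← e]), fun h _ e => h (congrArg Prod.snd (hτ.injective e)).symm⟩
  have ex : ∀ x, x ∉ {p | ∀ u, τ (u, 0) ≠ p} → ∃ u, τ (u, 0) = x := fun x hx => by simpa using hx
  have e : τ ⁻¹' {p | ∀ u, τ (u, 0) ≠ p} = univ ×ˢ {0}ᶜ := Set.ext fun w => (m w).trans (by simp)
  refine tr_of_ext hX (subset_univ _) (fun x _ => ?_) h (fun x _ hx => ?_) fun x _ hx => ?_
  · by_cases hx : x ∈ {p | ∀ u, τ (u, 0) ≠ p}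
    · exact subset_closure hx
    · obtain ⟨u, rfl⟩ := ex x hx
      exact map_mem_closure hτ.continuous ((dense_univ.prod (dense_compl_singleton (0 : ℂ))) (u, 0))
        fun w hw => (m w).2 hw.2
  · obtain ⟨u, rfl⟩ := ex x hx
    exact NSep.emb hτ (e ▸ (nsep_univ u).prod nsep_c)
  · obtain ⟨u, rfl⟩ := ex x hx
    obtain ⟨t, rfl⟩ := Circle.exp_surjective u
    have h' := h.comp (T := univ ×ˢ {0}ᶜ) hτ.continuous.continuousOn fun w hw => (m w).2 hw.2
    have := (op_of_isEmbedding hτ.isEmbedding _).tr hτ.injective.injOn (tr_arc_prod h'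
      (tr_punct (h'.comp (f := fun y => (1, y)) (by fun_prop) fun y hy => ⟨trivial, hy⟩) k) t)
    refine ⟨τ '' ((Circle.exp '' Ioo (t - 1) (t + 1)) ×ˢ univ), hτ.isOpenMap _
      ((isLocalHomeomorph_circleExp.isOpenMap _ isOpen_Ioo).prod isOpen_univ),
      ⟨_, ⟨⟨t, by constructor <;> linarith, rfl⟩, trivial⟩, rfl⟩, this.mono ?_⟩
    rintro _ ⟨⟨w, hw, rfl⟩, k⟩
    exact ⟨w, ⟨hw.1, (m w).1 k⟩, rfl⟩

variable {EN HN : Type} [NormedAddCommGroup EN] [NormedSpace ℝ EN] [FiniteDimensional ℝ EN]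
  [TopologicalSpace HN] {IN : ModelWithCorners ℝ EN HN} [IN.Boundaryless]
  {N : Type} [TopologicalSpace N] [ChartedSpace HN N] [IsManifold IN ∞ N] [T2Space N]
  (T : Tb IN N) {v : ℝ → Z2} {a b : Z2} {c : Rod53.X T v → Rod53.X T v → G}

variable (v) in
/-- the part off the axis -/
def off : Set (Rod53.X T v) := T.ext v '' (T.Ex ×ˢ univ)

theorem isOpen_off : IsOpen (off T v) := (T.ext v).toOpenPartialHomeomorph.isOpen_image_of_subset_source
  (T.isOpen_Ex.prod isOpen_univ) Subset.rfl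

theorem rod_mem_off (hu : Uni a b) {w : (Circle × ℂ) × ℝ} (h : w ∈ Ur v a) :
    T.rod v hu w ∈ off T v ↔ w.1.2 ≠ 0 := by
  refine ⟨?_, fun k => ⟨_, ⟨T.τ_mem.2 (gl_ne.2 k), trivial⟩, (T.rod_eq_ext hu k).symm⟩⟩
  rintro ⟨q, hq, e⟩ k
  have := congrArg (T.nf v) e
  rw [T.nf_ext hq.1, T.nf_rod hu h, T.Φr_zero k] at this
  cases this

theorem vtx_mem_off (hu : Uni a b) {x : ℝ} {z : ℂ × ℂ} (h : z ∈ Uv v a b x) :
    T.vtx v hu x z ∈ off T v ↔ z.1 ≠ 0 ∧ z.2 ≠ 0 := by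
  by_cases h1 : z.1 = 0
  · by_cases h2 : z.2 = 0
    · refine ⟨?_, fun k => absurd h1 k.1⟩
      rintro ⟨q, hq, e⟩
      have := congrArg (T.nf v) e
      rw [T.nf_ext hq.1, T.nf_vtx hu h, show z = 0 from Prod.ext h1 h2, T.Φv_zero] at this
      cases this
    · rw [T.vtx_eq_L hu h h2, rod_mem_off T hu (hL_mem h h2), Ne, hL_ne h2]
      simp [h1]
  · rw [T.vtx_eq_R hu h h1, rod_mem_off T hu.symm (hR_mem h h1), Ne, hR_ne h1]
    simp [h1]

theorem nsep_off (p : Rod53.X T v) (hp : p ∉ off T v) : NSep (off T v) p := by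
  induction p using T.ind with
  | h1 q x hq => exact absurd ⟨_, ⟨hq, trivial⟩, rfl⟩ hp
  | h2 a b hu u x hx =>
    exact NSep.pd (T.rod v hu).toOpenPartialHomeomorph (Or.inr hx)
      (((nsep_univ u).prod nsep_c).prod (nsep_univ x)) fun z hz =>
        Iff.trans (by simp) (rod_mem_off T hu hz).symm
  | h3 a b hu x hx =>
    exact NSep.pd (T.vtx v hu x).toOpenPartialHomeomorph (Tb.zero_mem_Uv hx) (nsep_c.prod nsep_c)
      fun z hz => Iff.trans (by simp) (vtx_mem_off T hu hz).symm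

theorem dense_off : Dense (off T v) := fun p => by
  have d := dense_compl_singleton (0 : ℂ)
  induction p using T.ind with
  | h1 q x hq => exact subset_closure ⟨_, ⟨hq, trivial⟩, rfl⟩
  | h2 a b hu u x hx =>
    refine ((T.rod v hu).toOpenPartialHomeomorph.continuousAt (Or.inr hx)).continuousWithinAt.mem_closure
      (s := (univ ×ˢ {0}ᶜ) ×ˢ univ) (((dense_univ.prod d).prod dense_univ) _) fun w hw => ?_
    exact (rod_mem_off T hu (Or.inl hw.1.2)).2 hw.1.2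
  | h3 a b hu x hx =>
    refine ((T.vtx v hu x).toOpenPartialHomeomorph.continuousAt
      (Tb.zero_mem_Uv hx)).continuousWithinAt.mem_closure (s := {0}ᶜ ×ˢ {0}ᶜ) ((d.prod d) _) fun w hw => ?_
    exact (vtx_mem_off T hu (Or.inl hw)).2 hw

/-- the axis never matters -/
theorem tr_of_off {S : Set (Rod53.X T v)} (hS : IsOpen S) (h : Coc S c) (k : Tr (S ∩ off T v) c) :
    Tr S c :=
  k.ext_nsep hS (hS.inter (isOpen_off T)) (inter_subset_closure hS fun p _ => dense_off T p) h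
    fun p hp hp' => (nsep_off T p fun e => hp' ⟨hp, e⟩).inter (hS.mem_nhds hp)

variable (v) in
/-- the curve of slope `a` over the point `q` of the base -/
def cv (a : Z2) (q : ℝ × ℝ) (x : Circle) : Rod53.X T v := T.ext v (T.τ (crv a q.2 x), q.1)

theorem continuousOn_ext : ContinuousOn (T.ext v) (T.Ex ×ˢ univ) :=
  (T.ext v).contMDiffOn_toFun.continuousOn

theorem ext_mem_ov {O : Set (ℝ × ℝ)} {w : Circle × ℂ} (h : w.2 ≠ 0) {x : ℝ} :
    T.ext v (T.τ w, x) ∈ T.ov v O ↔ (x, ‖w.2‖) ∈ O := by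
  have h1 := T.τ_mem.2 h
  rw [Tb.ov, mem_inter_iff, mem_preimage, Tb.bs, T.time_ext h1, T.yy_ext h, T.ext_mem_tor h1]
  simp

/-- **toric regions** -/
theorem tr_ov {O : Set (ℝ × ℝ)} (hO : IsOpen O) (h1 : H1 G (O ∩ {q | 0 < q.2}))
    (h2 : IsPreconnected (O ∩ {q | 0 < q.2})) (h : Coc (T.ov v O) c) (hu : Uni a b) {qa qb : ℝ × ℝ}
    (ha : qa ∈ O ∩ {q | 0 < q.2}) (hb : qb ∈ O ∩ {q | 0 < q.2}) (ka : Tr univ (pb (cv T v a qa) c))
    (kb : Tr univ (pb (cv T v b qb) c)) : Tr (T.ov v O) c := by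
  let Φ : Circle × Circle × ℝ × ℝ → Rod53.X T v := fun p =>
    T.rod v hu ((p.1, (p.2.2.2 : ℂ) * p.2.1), p.2.2.1)
  have ne : ∀ p : Circle × Circle × ℝ × ℝ, 0 < p.2.2.2 → (p.2.2.2 : ℂ) * p.2.1 ≠ 0 := fun p hp =>
    mul_ne_zero (Complex.ofReal_ne_zero.2 hp.ne') (Circle.coe_ne_zero _)
  have hΦ : ContinuousOn Φ (univ ×ˢ univ ×ˢ (O ∩ {q | 0 < q.2})) :=
    (T.rod v hu).contMDiffOn_toFun.continuousOn.comp (by fun_prop) fun p hp => Or.inl (ne p hp.2.2.2)
  have mΦ : MapsTo Φ (univ ×ˢ univ ×ˢ (O ∩ {q | 0 < q.2})) (T.ov v O) := fun p hp => by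
    simp only [Φ]
    rw [T.rod_eq_ext hu (ne p hp.2.2.2), ext_mem_ov T (gl_ne.2 (ne p hp.2.2.2)), norm_gl,
      norm_polar hp.2.2.2.le]
    exact hp.2.2.1
  have h' := h.comp hΦ mΦ
  have h'' := h'.comp (T := univ ×ˢ (O ∩ {q | 0 < q.2})) (f := fun y => (1, y)) (by fun_prop)
    fun y hy => ⟨trivial, hy⟩
  have k := tr_circle_prod (isPreconnected_univ.prod h2) (y₀ := (1, qb)) ⟨trivial, hb⟩ h'
    (tr_circle_prod h2 ha h'' (h1 _ (h''.comp (f := fun y => (1, y)) (by fun_prop) fun y hy => ⟨trivial, hy⟩))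
      (ka.congr (geq_of_eq fun x _ y _ => by
        simp only [pb, cv, Φ, T.rod_eq_ext hu (w := ((1, _), qa.1)) (ne (1, _, qa) ha.2),
          gl_left a b ha.2])))
    (kb.congr (geq_of_eq fun x _ y _ => by
      have e : ∀ u, T.rod v hu ((u, (qb.2 : ℂ) * (1 : Circle)), qb.1) = cv T v b qb u := fun u => by
        rw [T.rod_eq_ext hu (ne (u, 1, qb) hb.2), gl_right a b hb.2]; rfl
      simp only [pb, Φ, e]))
  have k2 : Tr {w : (Circle × ℂ) × ℝ | w.1.2 ≠ 0 ∧ (w.2, ‖w.1.2‖) ∈ O} (pb (T.rod v hu) c) :=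
    (k.comp (f := fun w : (Circle × ℂ) × ℝ => (w.1.1, dir w.1.2, w.2, ‖w.1.2‖))
      (ContinuousOn.prodMk (by fun_prop) ((continuousOn_dir.comp (by fun_prop) fun w hw => hw.1).prodMk
        (by fun_prop))) fun w hw => ⟨trivial, trivial, hw.2, norm_pos_iff.2 hw.1⟩).congr
      (geq_of_eq fun x _ y _ => by simp only [pb, Φ, norm_mul_dir])
  have s : {w : (Circle × ℂ) × ℝ | w.1.2 ≠ 0 ∧ (w.2, ‖w.1.2‖) ∈ O} ⊆ Ur v a := fun w hw => Or.inl hw.1
  refine tr_of_off T (T.isOpen_ov hO) h (((op_of_pd (T.rod v hu).toOpenPartialHomeomorph s).tr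
    ((T.rod v hu).injOn.mono s) k2).mono ?_)
  rintro p ⟨hp, hp'⟩
  obtain ⟨w, hw, rfl⟩ := T.mem_rod hu hp.1 (Or.inl (by
    obtain ⟨q, hq, rfl⟩ := hp'
    obtain ⟨w, e⟩ := (T.ext_mem_tor hq.1).1 hp.1
    obtain ⟨q, x⟩ := q
    obtain rfl : T.τ w = q := e
    rw [T.yy_ext (T.τ_mem.1 hq.1)]
    exact norm_ne_zero_iff.2 (T.τ_mem.1 hq.1)))
  refine ⟨w, ⟨(rod_mem_off T hu hw).1 hp', ?_⟩, rfl⟩
  rw [← T.time_rod hu hw, ← T.yy_rod hu hw]
  exact hp.2

/-- near a rod of slope `a` the curves of slope `a` bound -/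
theorem tr_crv {O : Set (ℝ × ℝ)} (hO : IsOpen O) (h : Coc (T.ov v O) c) (hu : Uni a b) {x : ℝ}
    (hx : x ∈ Jr v a) (hxO : (x, 0) ∈ O) :
    ∃ q ∈ O ∩ {q | 0 < q.2}, Tr univ (pb (cv T v a q) c) := by
  obtain ⟨ε, hε, hb⟩ := Metric.isOpen_iff.1 (hO.preimage (Continuous.prodMk_right x)) 0 hxO
  have m : ∀ r : ℝ, 0 ≤ r → r < ε → (x, r) ∈ O := fun r h0 hr =>
    hb (by rwa [mem_ball_zero_iff, Real.norm_of_nonneg h0])
  have h' := h.comp (T := ball (0 : ℂ) ε) (f := fun z => T.rod v hu ((1, z), x))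
    ((T.rod v hu).contMDiffOn_toFun.continuousOn.comp (by fun_prop) fun _ _ => Or.inr hx) fun z hz =>
      ⟨T.rod_mem_tor hu (Or.inr hx), by
        rw [mem_preimage, Tb.bs, T.time_rod hu (Or.inr hx), T.yy_rod hu (Or.inr hx)]
        exact m _ (norm_nonneg _) (mem_ball_zero_iff.1 hz)⟩
  have h2 : 0 < ε / 2 := by linarith
  refine ⟨(x, ε / 2), ⟨m _ h2.le (by linarith), h2⟩, ((h1_convex (convex_ball _ _) _ h').comp
    (f := fun y : Circle => ((ε / 2 : ℝ) : ℂ) * y) (by fun_prop) fun y _ => ?_).congr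
      (geq_of_eq fun y _ z _ => ?_)⟩
  · rw [mem_ball_zero_iff, norm_polar h2.le]; linarith
  · have ne : ∀ y : Circle, ((ε / 2 : ℝ) : ℂ) * y ≠ 0 := fun y =>
      mul_ne_zero (Complex.ofReal_ne_zero.2 h2.ne') (Circle.coe_ne_zero _)
    simp only [pb, cv, T.rod_eq_ext hu (w := ((1, _), x)) (ne _), gl_left a b h2]

/-- a toric region that touches two rods with determinant `± 1` is simply connected -/
theorem h1_ov {O : Set (ℝ × ℝ)} (hO : IsOpen O) (h1 : H1 G (O ∩ {q | 0 < q.2}))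
    (h2 : IsPreconnected (O ∩ {q | 0 < q.2})) (hu : Uni a b) {x y : ℝ} (hx : x ∈ Jr v a)
    (hxO : (x, 0) ∈ O) (hy : y ∈ Jr v b) (hyO : (y, 0) ∈ O) : H1 G (T.ov v O) := fun _ h =>
  let ⟨_, ha, ka⟩ := tr_crv T hO h hu hx hxO
  let ⟨_, hb, kb⟩ := tr_crv T hO h hu.symm hy hyO
  tr_ov T hO h1 h2 h hu ha hb ka kb

variable (v) in
/-- the region over the times `J` whose toric part lies over `O` -/
def reg (J : Set ℝ) (O : Set (ℝ × ℝ)) : Set (Rod53.X T v) :=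
  {p | T.time v p ∈ J ∧ (p ∈ T.tor v → T.bs v p ∈ O)}

theorem reg_univ (J : Set ℝ) : reg T v J univ = T.time v ⁻¹' J := by ext; simp [reg]

/-- **regions that contain the exterior**: trivial on the toric part, trivial -/
theorem tr_reg (hN : H1 G (univ : Set N)) {J : Set ℝ} (hJ : IsOpen J) (hc : Convex ℝ J)
    {O : Set (ℝ × ℝ)} (hO : IsOpen O) {R : ℝ} (hR : J ×ˢ Ioi R ⊆ O) (h : Coc (reg T v J O) c)
    (k : Tr (T.ov v (O ∩ J ×ˢ univ)) c) : Tr (reg T v J O) c := by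
  rcases J.eq_empty_or_nonempty with rfl | ⟨x, hx⟩
  · exact tr_empty.mono fun p hp => hp.1
  have oe := ld_isOpenEmbedding T.ld T.inj
  let E : Set N := (T.τ '' (univ ×ˢ closedBall 0 |R|))ᶜ
  have hE : IsOpen E := (T.isCompact_tube _).isClosed.isOpen_compl
  have mE : ∀ w, T.τ w ∈ E ↔ |R| < ‖w.2‖ := fun w => by
    simp only [E, mem_compl_iff, T.inj.mem_set_image, mem_prod, mem_univ, true_and,
      mem_closedBall_zero_iff, not_le]
  have ne : ∀ w, T.τ w ∈ E → w.2 ≠ 0 := fun w hw =>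
    norm_pos_iff.1 ((abs_nonneg R).trans_lt ((mE w).1 hw))
  have sE : E ⊆ T.Ex := fun p hp u e => ne (u, 0) (e ▸ hp) rfl
  have s : E ×ˢ J ⊆ T.Ex ×ˢ univ := prod_mono sE (subset_univ _)
  have mo : ∀ w, T.τ w ∈ E → ∀ y ∈ J, T.ext v (T.τ w, y) ∈ T.ov v (O ∩ J ×ˢ univ) := fun w hw y hy =>
    (ext_mem_ov T (ne w hw)).2 ⟨hR ⟨hy, (le_abs_self R).trans_lt ((mE w).1 hw)⟩, hy, trivial⟩
  have m : MapsTo (T.ext v) (E ×ˢ J) (reg T v J O) := by
    rintro ⟨q, y⟩ ⟨hq, hy⟩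
    refine ⟨by rwa [T.time_ext (sE hq)], fun k => ?_⟩
    obtain ⟨w, rfl⟩ := (T.ext_mem_tor (p := (q, y)) (sE hq)).1 k
    exact (mo w hq y hy).2.1
  have h' := h.comp ((continuousOn_ext T).mono s) m
  have k1 : Tr E (pb (fun q => (q, x)) (pb (T.ext v) c)) := by
    refine tr_side hE oe.isOpen_range (V := range T.τ) ?_
      (h'.comp (by fun_prop) fun q hq => ⟨hq, hx⟩) (k.comp (f := fun q => T.ext v (q, x))
      ((continuousOn_ext T).comp (by fun_prop) fun q hq => ⟨sE hq.1, trivial⟩) ?_)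
    · convert hN
      exact eq_univ_of_forall fun p => (em _).symm.imp id fun k => image_subset_range _ _ k
    · rintro _ ⟨hw, w, rfl⟩
      exact mo w hw x hx
  have k2 := (op_of_pd (T.ext v).toOpenPartialHomeomorph s).tr ((T.ext v).injOn.mono s)
    (tr_prod_star (hc hx) h' k1)
  refine (k.union (T.isOpen_ov (hO.inter (hJ.prod isOpen_univ)))
    ((T.ext v).toOpenPartialHomeomorph.isOpen_image_of_subset_source (hE.prod hJ) s) k2 ?_).mono ?_
  · have := (((isPreconnected_univ (α := Circle)).prod (isPreconnected_univ (α := Circle))).prod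
      ((isPreconnected_Ioi (a := |R|)).prod hc.isPreconnected)).image
      (fun p : (Circle × Circle) × ℝ × ℝ => T.ext v (T.τ (p.1.1, (p.2.1 : ℂ) * p.1.2), p.2.2))
      ((continuousOn_ext T).comp (((oe.continuous.comp (by fun_prop)).prodMk (by fun_prop)).continuousOn)
        fun p hp => ⟨sE ((mE _).2 (by
          rw [norm_polar ((abs_nonneg R).trans (le_of_lt hp.2.1))]; exact hp.2.1)), trivial⟩)
    convert this using 1
    ext p
    constructor
    · rintro ⟨hp, ⟨q, y⟩, hq, rfl⟩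
      obtain ⟨w, rfl⟩ := (T.ext_mem_tor (p := (q, y)) (sE hq.1)).1 hp.1
      exact ⟨((w.1, dir w.2), ‖w.2‖, y), ⟨⟨trivial, trivial⟩, (mE w).1 hq.1, hq.2⟩, by
        simp only [norm_mul_dir]; rfl⟩
    · rintro ⟨p, hp, rfl⟩
      have : T.τ (p.1.1, (p.2.1 : ℂ) * p.1.2) ∈ E := (mE _).2 (by
        rw [norm_polar ((abs_nonneg R).trans (le_of_lt hp.2.1))]; exact hp.2.1)
      exact ⟨mo _ this _ hp.2.2, _, ⟨this, hp.2.2⟩, rfl⟩
  · intro p hp
    by_cases k : p ∈ T.tor v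
    · exact Or.inl ⟨k, hp.2 k, hp.1, trivial⟩
    · rcases T.ext_or_axis p with ⟨s, hs, rfl⟩ | ⟨k', -⟩
      · exact Or.inr ⟨s, ⟨fun e => k ((T.ext_mem_tor hs).2 (image_subset_range _ _ e)),
          T.time_ext (v := v) hs ▸ hp.1⟩, rfl⟩
      · exact absurd k' k

theorem ov_subset_reg {J : Set ℝ} {O : Set (ℝ × ℝ)} : T.ov v (O ∩ J ×ˢ univ) ⊆ reg T v J O :=
  fun _ hp => ⟨hp.2.2.1, fun _ => hp.2.1⟩

/-- base domains with upward closed fibres -/
theorem h1_up {J : Set ℝ} (hJ : IsOpen J) (hc : Convex ℝ J) {O : Set (ℝ × ℝ)} (hO : IsOpen O) {R : ℝ}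
    (hR : J ×ˢ Ioi R ⊆ O) (hv : ∀ x y y', 0 < y → y ≤ y' → (x, y) ∈ O → (x, y') ∈ O) :
    H1 G (O ∩ J ×ˢ univ ∩ {q | 0 < q.2}) ∧ IsPreconnected (O ∩ J ×ˢ univ ∩ {q | 0 < q.2}) := by
  refine h1_vert ((hO.inter (hJ.prod isOpen_univ)).inter (isOpen_lt continuous_const continuous_snd))
    (fun x => convex_iff_ordConnected.2 ⟨fun y hy _ _ z hz =>
      ⟨⟨hv x y z hy.2 hz.1 hy.1.1, hy.1.2.1, trivial⟩, lt_of_lt_of_le hy.2 hz.1⟩⟩) ?_
  rw [show Prod.fst '' (O ∩ J ×ˢ univ ∩ {q | 0 < q.2}) = J from ?_]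
  · exact hc
  ext x
  exact ⟨by rintro ⟨q, hq, rfl⟩; exact hq.1.2.1, fun hx => ⟨(x, |R| + 1),
    ⟨⟨hR ⟨hx, by simp only [mem_Ioi]; linarith [le_abs_self R]⟩, hx, trivial⟩,
      show (0 : ℝ) < |R| + 1 by positivity⟩, rfl⟩⟩

/-- a region with the exterior that touches two rods with determinant `± 1` is simply connected -/
theorem h1_reg (hN : H1 G (univ : Set N)) {J : Set ℝ} (hJ : IsOpen J) (hc : Convex ℝ J)
    {O : Set (ℝ × ℝ)} (hO : IsOpen O) {R : ℝ} (hR : J ×ˢ Ioi R ⊆ O)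
    (hv : ∀ x y y', 0 < y → y ≤ y' → (x, y) ∈ O → (x, y') ∈ O) (hu : Uni a b) {x y : ℝ}
    (hx : x ∈ J ∩ Jr v a) (hxO : (x, 0) ∈ O) (hy : y ∈ J ∩ Jr v b) (hyO : (y, 0) ∈ O) :
    H1 G (reg T v J O) := fun _ h =>
  tr_reg T hN hJ hc hO hR h ((h1_ov T (hO.inter (hJ.prod isOpen_univ)) (h1_up hJ hc hO hR hv).1
    (h1_up (G := G) hJ hc hO hR hv).2 hu hx.2 ⟨hxO, hx.1, trivial⟩ hy.2 ⟨hyO, hy.1, trivial⟩).tr h
      (ov_subset_reg T))

/-- a cocycle on a region with the exterior that is trivial on one slice is trivial -/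
theorem tr_reg_slice (hN : H1 G (univ : Set N)) {J : Set ℝ} (hJ : IsOpen J) (hc : Convex ℝ J)
    {O : Set (ℝ × ℝ)} (hO : IsOpen O) {R : ℝ} (hR : J ×ˢ Ioi R ⊆ O)
    (hv : ∀ x y y', 0 < y → y ≤ y' → (x, y) ∈ O → (x, y') ∈ O) (h : Coc (reg T v J O) c) {x : ℝ}
    (hx : x ∈ J) (k : Tr (reg T v {x} O) c) : Tr (reg T v J O) c := by
  have h0 : (0 : ℝ) < |R| + 1 := by positivity
  have hq : (x, |R| + 1) ∈ O := hR ⟨hx, by simp only [mem_Ioi]; linarith [le_abs_self R]⟩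
  have kk : ∀ a, Tr univ (pb (cv T v a (x, |R| + 1)) c) := fun a =>
    k.comp ((continuousOn_ext T).comp (((ld_isOpenEmbedding T.ld T.inj).continuous.comp
      (continuous_crv a _)).prodMk continuous_const).continuousOn
        fun y _ => ⟨T.τ_mem.2 (crv_ne a h0 y), trivial⟩) fun y _ =>
      ⟨T.time_ext (T.τ_mem.2 (crv_ne a h0 y)), fun _ =>
        ((ext_mem_ov T (crv_ne a h0 y)).2 (by rwa [norm_crv a h0])).2⟩
  exact tr_reg T hN hJ hc hO hR h (tr_ov T (hO.inter (hJ.prod isOpen_univ)) (h1_up hJ hc hO hR hv).1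
    (h1_up (G := G) hJ hc hO hR hv).2 (h.mono (ov_subset_reg T)) uni_std ⟨⟨hq, hx, trivial⟩, h0⟩
    ⟨⟨hq, hx, trivial⟩, h0⟩ (kk _) (kk _))

/-- a word over an interval that meets two rods with determinant `± 1` is simply connected -/
theorem h1_time (hN : H1 G (univ : Set N)) {J : Set ℝ} (hJ : IsOpen J) (hc : Convex ℝ J) (hu : Uni a b)
    {x y : ℝ} (hx : x ∈ J ∩ Jr v a) (hy : y ∈ J ∩ Jr v b) : H1 G (T.time v ⁻¹' J) :=
  reg_univ T J ▸ h1_reg T hN hJ hc isOpen_univ (R := 0) (subset_univ _) (fun _ _ _ _ _ _ => trivial) hu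
    hx trivial hy trivial

theorem h1_S3 : H1 G (univ : Set Crest.GeometryTopology.DehnSurgery.S3) := h1_sphere (by simp)

end Crest.Agent.X212.Hz56
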