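import Crest.Agent.X212.Hz56.Rod
import Crest.Agent.X212.Hz56.Inst
import Crest.Agent.X212.Cyl58.HB
import Crest.Agent.X212.Cyl58.Jn
import Crest.Agent.X212.M.Wall

/-!
# X212 / Hz56, part Pc (helper56): `H1` of the pieces of layer M

* `tr_U`, `h1_U` : regions of a wall system;  `h1_slab` : bands;
* `Th2`, `Th3`, `Ont` : thin complements; balls and products of caps; `Capd.h1_up`, `Capd.h1_down`;
* `TIso.h1`, `TIso.pre`, `h1_times`, `Jn.h1`;
* `h1_disc` : half discs with holes in a rod manifold.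
-/

set_option autoImplicit false
set_option linter.unusedSectionVars false

open Set Topology Filter Function Metric
open scoped Manifold ContDiff

noncomputable section

namespace Crest.Agent.X212.Hz56

open Crest.Agent.X212.Lev33 Crest.Agent.X212.Glue52 Crest.Agent.X212.Cyl58

variable {G : Type*} [Group G]

section Gen

variable {X Y : Type*} [TopologicalSpace X] [TopologicalSpace Y] {U : Set X} {c : X → X → G}

/-- attaching pairwise disjoint open sets along connected overlaps -/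
theorem tr_attach {ι : Type*} {W : ι → Set X} (hU : IsOpen U) (ho : ∀ i, IsOpen (W i))
    (hd : Pairwise (Disjoint on W)) (h : Tr U c) (k : ∀ i, Tr (W i) c)
    (hc : ∀ i, IsPreconnected (U ∩ W i)) : Tr (U ∪ ⋃ i, W i) c := by
  classical
  obtain ⟨b, hb⟩ := h
  choose s hs e using fun i => Prim.ext_union hU (ho i) hb (k i) (hc i)
  let d : X → G := fun x => if k : ∃ i, x ∈ W i then s k.choose x else b x
  have e1 : ∀ i, ∀ y ∈ W i, d y = s i y := fun i y hy => by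
    have k : ∃ i, y ∈ W i := ⟨i, hy⟩
    have : k.choose = i := by_contra fun n => disjoint_left.1 (hd n) k.choose_spec hy
    simp only [d, dif_pos k, this]
  have e2 : ∀ y ∈ U, d y = b y := fun y hy => by
    by_cases k : ∃ i, y ∈ W i
    · simp only [d, dif_pos k, e _ hy]
    · simp only [d, dif_neg k]
  refine ⟨d, prim_union hU (isOpen_iUnion ho) (hb.congr' e2) ((prim_open (isOpen_iUnion ho)).2
    fun x hx => ?_)⟩
  obtain ⟨i, hi⟩ := mem_iUnion.1 hx
  exact (prim_open (ho i)).1 (((hs i).mono subset_union_right).congr' (e1 i)) x hi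

theorem h1_slab {j : Y × ℝ → X} (hj : IsEmbedding j) (hY : H1 G (univ : Set Y)) {s : Set ℝ}
    (hs : Convex ℝ s) : H1 G (j '' (univ ×ˢ s)) :=
  (hY.prod_convex hs).image (op_of_isEmbedding hj _) hj.injective.injOn

/-- the complement of `U` has codimension at least two -/
structure Th2 (U : Set X) : Prop where
  op : IsOpen U
  dense : Dense U
  nsep : ∀ z ∉ U, NSep U z

variable (G) in
/-- the complement of `U` has codimension at least three -/
structure Th3 (U : Set X) : Prop extends Th2 U where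
  loc : ∀ z ∉ U, ∃ V, IsOpen V ∧ z ∈ V ∧ H1 G (V ∩ U)

variable (G) in
/-- cocycles that are trivial on `U` are trivial -/
def Ont (U : Set X) : Prop := ∀ c : X → X → G, Coc univ c → Tr U c → Tr univ c

theorem Th2.ont (h : Th2 U) : Ont G U := fun _ k t =>
  t.ext_nsep isOpen_univ h.op (fun x _ => h.dense x) k fun x _ => h.nsep x

theorem H1.ont (h : H1 G (univ : Set X)) : Ont G U := fun c k _ => h c k

theorem Th3.h1 (h : Th3 G U) (k : H1 G (univ : Set X)) : H1 G U :=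
  k.remove (subset_univ _) (fun x _ => h.dense x) (fun x _ => h.nsep x) fun x _ => h.loc x

theorem th2_zero {E : Type*} [NormedAddCommGroup E] [NormedSpace ℝ E] [FiniteDimensional ℝ E]
    (h : 1 < Module.finrank ℝ E) : Th2 ({0}ᶜ : Set E) :=
  have : Nontrivial E := Module.finrank_pos_iff.1 (by omega : 0 < Module.finrank ℝ E)
  ⟨isOpen_compl_singleton, dense_compl_singleton 0, fun z hz => by
    obtain rfl : z = 0 := by simpa using hz
    exact nsep_zero h⟩

theorem th3_zero {E : Type*} [NormedAddCommGroup E] [NormedSpace ℝ E] [FiniteDimensional ℝ E]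
    (h : 2 < Module.finrank ℝ E) : Th3 G ({0}ᶜ : Set E) :=
  ⟨th2_zero (by omega), fun _ _ => ⟨univ, isOpen_univ, trivial, by rw [univ_inter]; exact h1_punct h⟩⟩

theorem Th2.prod [LocallyConnectedSpace Y] (h : Th2 U) : Th2 ((univ : Set Y) ×ˢ U) :=
  ⟨isOpen_univ.prod h.op, dense_univ.prod h.dense, fun z hz =>
    (nsep_univ z.1).prod (h.nsep z.2 fun k => hz ⟨trivial, k⟩)⟩

variable {E H M : Type*} [NormedAddCommGroup E] [NormedSpace ℝ E] [TopologicalSpace H]
  (I : ModelWithCorners ℝ E H) [I.Boundaryless] [TopologicalSpace M] [ChartedSpace H M]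
include I

/-- small convex charts -/
theorem exists_cvx {x : M} {W : Set M} (hW : W ∈ 𝓝 x) : ∃ (q : E → M) (J : Set E), Convex ℝ J ∧ Op q J ∧
    InjOn q J ∧ IsOpen (q '' J) ∧ x ∈ q '' J ∧ q '' J ⊆ W := by
  let e := ((chartAt H x).trans I.toHomeomorph.toOpenPartialHomeomorph).symm
  have hx : x ∈ e.target := ⟨mem_chart_source H x, trivial⟩
  have h1 := e.map_target hx
  obtain ⟨r, hr, hb⟩ := Metric.mem_nhds_iff.1 (inter_mem (e.open_source.mem_nhds h1)
    (e.continuousAt h1 (by rwa [e.right_inv hx])))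
  have s : ball (e.symm x) r ⊆ e.source := hb.trans inter_subset_left
  exact ⟨e, _, convex_ball _ r, op_of_pd e s, e.injOn.mono s,
    e.isOpen_image_of_subset_source isOpen_ball s, ⟨_, mem_ball_self hr, e.right_inv hx⟩,
    image_subset_iff.2 fun z hz => (hb hz).2⟩

theorem locConn : LocallyConnectedSpace M :=
  locallyConnectedSpace_iff_subsets_isOpen_isConnected.2 fun x W hW => by
    obtain ⟨q, J, h1, h2, -, h4, h5, h6⟩ := exists_cvx I hW
    exact ⟨_, h6, h4, h5, ⟨x, h5⟩, h1.isPreconnected.image q h2.continuousOn⟩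

/-- manifolds are locally simply connected -/
theorem exists_h1 {x : M} {W : Set M} (hW : W ∈ 𝓝 x) :
    ∃ V, IsOpen V ∧ x ∈ V ∧ V ⊆ W ∧ IsPreconnected V ∧ H1 G V := by
  obtain ⟨q, J, h1, h2, h3, h4, h5, h6⟩ := exists_cvx I hW
  exact ⟨_, h4, h5, h6, h1.isPreconnected.image q h2.continuousOn, (h1_convex h1).image h2 h3⟩

theorem Th3.prod (h : Th3 G U) : Th3 G ((univ : Set M) ×ˢ U) :=
  have := locConn (M := M) I
  ⟨h.toTh2.prod, fun z hz => by
    obtain ⟨V, h1, h2, h3⟩ := h.loc z.2 fun k => hz ⟨trivial, k⟩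
    obtain ⟨q, J, k1, k2, k3, k4, k5, -⟩ := exists_cvx I (univ_mem (f := 𝓝 z.1))
    refine ⟨(q '' J) ×ˢ V, k4.prod h1, ⟨k5, h2⟩, ?_⟩
    have := (h3.convex_prod k1).image (k2.prodMap (op_id _)) (k3.prodMap (injOn_id _))
    rwa [prodMap_image_prod, image_id, ← inter_univ (q '' J), ← prod_inter_prod] at this⟩

end Gen

/-! ### regions of a system of walls -/

section Reg

open M

variable {X : Type} [TopologicalSpace X] {A : Type} [Finite A] {S : Sys X A} {ρ π : Reg A}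

theorem tr_U (h : S.IsReg ρ) (hs : S.U ρ ⊆ S.U π) (hπ : H1 G (S.U π)) {c : X → X → G}
    (hc : Coc (S.U ρ) c) (k : ∀ a b, ρ a = some b → π a ≠ some b → Tr ((S.w a).half b) c) :
    Tr (S.U ρ) c := by
  let ι := {p : A × Bool // ρ p.1 = some p.2 ∧ π p.1 ≠ some p.2}
  refine tr_side (V := S.U π ∩ ⋃ p : ι, (S.w p.1.1).sd (!p.1.2) ∪ (S.w p.1.1).band) (S.isOpen_U ρ)
    ((S.isOpen_U π).inter (isOpen_iUnion fun p => ((S.w _).op_sd _).union (S.w _).op_band)) ?_ hc
    ((tr_iUnion (W := fun p : ι => (S.w p.1.1).half p.1.2)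
      (fun p => (S.w _).op_band.inter ((S.w _).op_sd _)) (fun p q hpq => ?_)
        fun p => k _ _ p.2.1 p.2.2).mono ?_)
  · convert hπ using 1
    refine Subset.antisymm (union_subset hs inter_subset_left) fun x hx => ?_
    by_cases hx' : x ∈ S.U ρ
    · exact Or.inl hx'
    · simp only [Sys.U, mem_ofPred_eq, not_forall] at hx'
      obtain ⟨a, b, h1, h2⟩ := hx'
      exact Or.inr ⟨hx, mem_iUnion.2 ⟨⟨(a, b), h1, fun e => h2 (hx a b e)⟩, (S.w a).compl_subset b h2⟩⟩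
  · have : p.1.1 ≠ q.1.1 := fun e => hpq (Subtype.ext (Prod.ext e
      (Option.some.inj (p.2.1.symm.trans (e ▸ q.2.1)))))
    exact (h.cell (Sys.mem_bd_of p.2.1) (Sys.mem_bd_of q.2.1) this).mono inter_subset_left
      inter_subset_left
  · rintro x ⟨h1, -, h2⟩
    obtain ⟨p, hp⟩ := mem_iUnion.1 h2
    have := h1 _ _ p.2.1
    exact mem_iUnion.2 ⟨p, hp.resolve_left ((S.w _).not_mem_sd this), this⟩

/-- a region cut out of a simply connected region by simply connected walls -/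
theorem h1_U (h : S.IsReg ρ) (hs : S.U ρ ⊆ S.U π) (hπ : H1 G (S.U π))
    (k : ∀ a b, ρ a = some b → π a ≠ some b → H1 G ((S.w a).half b)) : H1 G (S.U ρ) := fun _ hc =>
  tr_U h hs hπ hc fun a b h1 h2 => (k a b h1 h2).tr hc (h.adj a b h1)

theorem h1_U_top (h : S.IsReg ρ) (hX : H1 G (univ : Set X))
    (k : ∀ a b, ρ a = some b → H1 G ((S.w a).half b)) : H1 G (S.U ρ) :=
  h1_U (π := top A) h (by simp) (by simpa using hX) fun a b h1 _ => k a b h1

end Reg

variable {V V' V'' W : Type} [NormedAddCommGroup V] [NormedSpace ℝ V] [NormedAddCommGroup V']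
  [NormedSpace ℝ V'] [NormedAddCommGroup V''] [NormedSpace ℝ V''] [NormedAddCommGroup W]
  [NormedSpace ℝ W]

/-! ### caps -/

theorem th3_ball {E : Type} [NormedAddCommGroup E] [InnerProductSpace ℝ E] (n : ℕ)
    [h : Fact (Module.finrank ℝ E = n + 1)] (L : E ≃L[ℝ] V) (hn : 2 ≤ n) :
    Th3 G (range (ballCap n L).c) := by
  have : FiniteDimensional ℝ E := Module.finite_of_finrank_eq_succ h.out
  have k : Th3 G (range (pol : sphere (0 : E) 1 × ℝ → E)) := by
    rw [range_pol]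
    exact th3_zero (by rw [h.out]; omega)
  exact k

theorem range_prod {U W' : Type} [NormedAddCommGroup U] [NormedSpace ℝ U] [NormedAddCommGroup W']
    [NormedSpace ℝ W'] (Z : Pc U) [CompactSpace Z.M] [T2Space Z.M] [SecondCountableTopology Z.M]
    {Y : Pc W'} (C : Cap V' Y) (LV : (U × V') ≃L[ℝ] V) (LW : (U × W') ≃L[ℝ] W) :
    range (Cap.prod Z C LV LW).c = (univ : Set Z.M) ×ˢ range C.c := by
  ext x
  exact ⟨by rintro ⟨p, rfl⟩; exact ⟨trivial, _, rfl⟩,
    fun ⟨_, p, e⟩ => ⟨((x.1, p.1), p.2), Prod.ext rfl e⟩⟩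

theorem th3_prod {U W' : Type} [NormedAddCommGroup U] [NormedSpace ℝ U] [NormedAddCommGroup W']
    [NormedSpace ℝ W'] (Z : Pc U) [CompactSpace Z.M] [T2Space Z.M] [SecondCountableTopology Z.M]
    {Y : Pc W'} (C : Cap V' Y) (LV : (U × V') ≃L[ℝ] V) (LW : (U × W') ≃L[ℝ] W)
    (h : Th3 G (range C.c)) : Th3 G (range (Cap.prod Z C LV LW).c) := by
  rw [range_prod]
  exact h.prod Z.I

theorem range_reparam {Y Y' : Pc W} (C : Cap V Y) (f : Y'.M ≃ₘ^∞⟮Y'.I, Y.I⟯ Y.M) :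
    range (C.reparam f).c = range C.c := by
  ext x
  exact ⟨by rintro ⟨p, rfl⟩; exact ⟨_, rfl⟩,
    by rintro ⟨p, rfl⟩; exact ⟨(f.symm p.1, p.2), by simp [Cap.reparam]⟩⟩

section Capd

variable {X : Pc V} {β : Type} {H : HB W X β} {C : ∀ a, Cap V (H.Y a)} {Z : Pc V'} (D : Capd H C Z)

theorem capd_image : D.φ '' H.U = D.φ.target := by
  rw [← D.src]; exact D.φ.toPartialEquiv.image_source_eq_target

theorem capd_mem {a : β} {z : (C a).P.M} : D.cap a z ∈ D.φ.target ↔ z ∈ range (C a).c := by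
  rw [← capd_image]
  refine ⟨?_, ?_⟩
  · rintro ⟨x, hx, e⟩
    exact by_contra fun k => D.ne_cap hx k e
  · rintro ⟨p, rfl⟩
    exact ⟨_, H.mem a _ _ (Real.exp_pos _), (D.eq' a p).symm⟩

theorem capd_h1_iff : H1 G D.φ.target ↔ H1 G (H.U : Set X.M) := by
  have s : (H.U : Set X.M) ⊆ D.φ.source := D.src.superset
  rw [← capd_image]
  exact ⟨fun k => k.of_image (op_of_pd D.φ.toOpenPartialHomeomorph s) (D.φ.injOn.mono s),
    fun k => k.image (op_of_pd D.φ.toOpenPartialHomeomorph s) (D.φ.injOn.mono s)⟩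

theorem capd_not_mem {z : Z.M} (h : z ∉ D.φ.target) : ∃ a w, w ∉ range (C a).c ∧ D.cap a w = z :=
  (D.surj z).resolve_left fun ⟨_, hx, e⟩ => h (e ▸ D.φ.map_source (D.mem_src hx))

include D in
/-- from the open piece to the capped piece -/
theorem capd_h1_up (hU : H1 G (H.U : Set X.M)) (hY : ∀ a, PreconnectedSpace (H.Y a).M)
    (hC : ∀ a, Ont G (range (C a).c)) : H1 G (univ : Set Z.M) := fun c k => by
  have t := ((capd_h1_iff D).2 hU).tr k (subset_univ _)
  have e : ∀ a, D.φ.target ∩ range (D.cap a) = range (D.cap a ∘ (C a).c) := fun a => by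
    ext z
    constructor
    · rintro ⟨h, w, rfl⟩
      obtain ⟨p, rfl⟩ := (capd_mem D).1 h
      exact ⟨p, rfl⟩
    · rintro ⟨p, rfl⟩
      exact ⟨(capd_mem D).2 ⟨p, rfl⟩, _, rfl⟩
  refine (tr_attach (W := fun a => range (D.cap a)) D.φ.open_target (fun a => (D.oe a).isOpen_range)
    (fun a a' h => disjoint_left.2 ?_) t (fun a => ?_) fun a => ?_).mono fun z _ => ?_
  · rintro _ ⟨z, rfl⟩ ⟨w, e⟩
    exact h (D.disj _ _ _ _ e.symm)
  · exact (tr_range_iff (D.oe a).isOpenEmbedding.isEmbedding).2 (hC a _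
      (k.comp (D.oe a).continuous.continuousOn (mapsTo_univ _ _))
      (t.comp (D.oe a).continuous.continuousOn fun z hz => (capd_mem D).2 hz))
  · rw [e]
    exact isPreconnected_range ((D.oe a).continuous.comp (C a).isEnd.oe.continuous)
  · by_cases h : z ∈ D.φ.target
    · exact Or.inl h
    · obtain ⟨a, w, -, rfl⟩ := capd_not_mem D h
      exact Or.inr (mem_iUnion.2 ⟨a, w, rfl⟩)

theorem capd_th2 (hC : ∀ a, Th2 (range (C a).c)) : Th2 D.φ.target := by
  have e : ∀ a, D.cap a ⁻¹' D.φ.target = range (C a).c := fun a => Set.ext fun _ => capd_mem D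
  refine ⟨D.φ.open_target, fun z => ?_, fun z h => ?_⟩
  · by_cases h : z ∈ D.φ.target
    · exact subset_closure h
    · obtain ⟨a, w, -, rfl⟩ := capd_not_mem D h
      exact map_mem_closure (D.oe a).continuous ((hC a).dense w) fun _ hz => (capd_mem D).2 hz
  · obtain ⟨a, w, hw, rfl⟩ := capd_not_mem D h
    have : Nonempty (C a).P.M := ⟨w⟩
    exact NSep.emb (D.oe a).isOpenEmbedding (e a ▸ (hC a).nsep w hw)

theorem capd_th3 (hC : ∀ a, Th3 G (range (C a).c)) : Th3 G D.φ.target :=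
  ⟨capd_th2 D fun a => (hC a).toTh2, fun z h => by
    obtain ⟨a, w, hw, rfl⟩ := capd_not_mem D h
    obtain ⟨O, h1, h2, h3⟩ := (hC a).loc w hw
    refine ⟨D.cap a '' O, (D.oe a).isOpen_image h1, mem_image_of_mem _ h2, ?_⟩
    convert h3.image (op_of_isEmbedding (D.oe a).isOpenEmbedding.isEmbedding _) (D.oe a).inj.injOn using 1
    ext z
    constructor
    · rintro ⟨⟨u, hu, rfl⟩, k⟩
      exact ⟨u, ⟨hu, (capd_mem D).1 k⟩, rfl⟩
    · rintro ⟨u, hu, rfl⟩
      exact ⟨⟨u, hu.1, rfl⟩, (capd_mem D).2 hu.2⟩⟩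

include D in
/-- from the capped piece to the open piece (balls, `S¹ × D³`) -/
theorem capd_h1_down (hZ : H1 G (univ : Set Z.M)) (hC : ∀ a, Th3 G (range (C a).c)) :
    H1 G (H.U : Set X.M) := (capd_h1_iff D).1 ((capd_th3 D hC).h1 hZ)

end Capd

/-! ### timed pieces -/

section Time

variable {M : TP V} {M' : TP V'} {J s : Set ℝ}

theorem tiso_h1 (k : TIso M M' J) {S : Set M.P.M} (h : S ⊆ M.τ ⁻¹' J) : H1 G (k '' S) ↔ H1 G S :=
  have s : S ⊆ k.φ.source := k.src ▸ h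
  ⟨fun t => t.of_image (op_of_pd k.φ.toOpenPartialHomeomorph s) (k.φ.injOn.mono s),
    fun t => t.image (op_of_pd k.φ.toOpenPartialHomeomorph s) (k.φ.injOn.mono s)⟩

theorem tiso_h1_time (k : TIso M M' J) (h : s ⊆ J) : H1 G (M'.τ ⁻¹' s) ↔ H1 G (M.τ ⁻¹' s) := by
  rw [← k.image_preimage h, tiso_h1 k (preimage_mono h)]

theorem tiso_tr (k : TIso M M' J) (h : s ⊆ J) {c : M'.P.M → M'.P.M → G}
    (t : Tr (M.τ ⁻¹' s) (pb k c)) : Tr (M'.τ ⁻¹' s) c :=
  have s : M.τ ⁻¹' s ⊆ k.φ.source := k.src ▸ preimage_mono h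
  k.image_preimage h ▸ (op_of_pd k.φ.toOpenPartialHomeomorph s).tr (k.φ.injOn.mono s) t

theorem tiso_pre (k : TIso M M' J) (h : s ⊆ J) (t : IsPreconnected (M.τ ⁻¹' s)) :
    IsPreconnected (M'.τ ⁻¹' s) :=
  k.image_preimage h ▸ t.image _ (k.φ.contMDiffOn.continuousOn.mono (k.src ▸ preimage_mono h))

theorem cyl_pre (Y : Pc W) [CompactSpace Y.M] [T2Space Y.M] [SecondCountableTopology Y.M]
    [ConnectedSpace Y.M] (h : IsPreconnected s) : IsPreconnected ((cylT Y).τ ⁻¹' s) := by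
  have := (isPreconnected_univ (α := Y.M)).prod h
  rwa [univ_prod] at this

theorem cyl_h1 (Y : Pc W) [CompactSpace Y.M] [T2Space Y.M] [SecondCountableTopology Y.M]
    [Nonempty Y.M] (hY : H1 G (univ : Set Y.M)) (h : Convex ℝ s) : H1 G ((cylT Y).τ ⁻¹' s) := by
  have := hY.prod_convex h
  rwa [univ_prod] at this

/-- on a product region a cocycle that is trivial on one slice is trivial -/
theorem tr_cyl {Y : Pc W} [CompactSpace Y.M] [T2Space Y.M] [SecondCountableTopology Y.M]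
    [Nonempty Y.M] (k : TIso (cylT Y) M J) (h : s ⊆ J) (hs : Convex ℝ s) {c : M.P.M → M.P.M → G}
    (hc : Coc (M.τ ⁻¹' s) c) {x : ℝ} (hx : x ∈ s) (t : Tr (M.τ ⁻¹' {x}) c) : Tr (M.τ ⁻¹' s) c := by
  have ck : ContinuousOn k (univ ×ˢ s) :=
    k.φ.contMDiffOn.continuousOn.mono fun p hp => k.mem_src (h hp.2)
  have := tr_prod_star (hs hx) (hc.comp ck fun p hp => show M.τ _ ∈ s from (k.tm p (h hp.2)).symm ▸ hp.2)
    (t.comp (f := fun y => k (y, x)) (ck.comp (by fun_prop) fun y _ => ⟨trivial, hx⟩)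
      fun y _ => k.tm (y, x) (h hx))
  exact tiso_tr k h (by rwa [univ_prod] at this)

theorem h1_times {J₁ J₂ : Set ℝ} (h₁ : IsOpen J₁) (h₂ : IsOpen J₂) (k₁ : H1 G (M.τ ⁻¹' J₁))
    (k₂ : H1 G (M.τ ⁻¹' J₂)) (hc : IsPreconnected (M.τ ⁻¹' (J₁ ∩ J₂))) : H1 G (M.τ ⁻¹' (J₁ ∪ J₂)) :=
  k₁.union (h₁.preimage M.cont) (h₂.preimage M.cont) k₂ hc

theorem jn_h1 {A : TP V} {B : TP V'} {X : TP V''} {a b : ℝ} {g : TIso A B (Ioo a b)} (j : Jn A B X g)
    (hA : H1 G (A.τ ⁻¹' Iio b)) (hB : H1 G (B.τ ⁻¹' Ioi a))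
    (hc : IsPreconnected (A.τ ⁻¹' Ioo a b)) : H1 G (univ : Set X.P.M) := by
  have := h1_times isOpen_Iio isOpen_Ioi ((tiso_h1_time j.l Subset.rfl).2 hA)
    ((tiso_h1_time j.r Subset.rfl).2 hB) (by
      rw [Iio_inter_Ioi]; exact tiso_pre j.l Ioo_subset_Iio_self hc)
  rwa [j.union, preimage_univ] at this

end Time

/-! ### half discs -/

section Disc

open Rod53

/-- the base distance -/
abbrev rd (c : ℝ) (q : ℝ × ℝ) : ℝ := √((q.1 - c) ^ 2 + q.2 ^ 2)

theorem rd_mono (c x : ℝ) {y y' : ℝ} (h0 : 0 ≤ y) (h : y ≤ y') : rd c (x, y) ≤ rd c (x, y') :=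
  Real.sqrt_le_sqrt (by nlinarith)

/-- a half disc with holes -/
theorem h1_half {c r r₀ : ℝ} (hr : r₀ < r) {O : Set (ℝ × ℝ)} (hO : IsOpen O)
    (hv : ∀ x y y', 0 < y → y ≤ y' → (x, y) ∈ O → (x, y') ∈ O)
    (hA : ∀ q : ℝ × ℝ, 0 < q.2 → r₀ < rd c q → rd c q < r → q ∈ O) :
    H1 G (O ∩ {q | rd c q < r} ∩ {q | 0 < q.2}) ∧
      IsPreconnected (O ∩ {q | rd c q < r} ∩ {q | 0 < q.2}) := by
  refine h1_vert ((hO.inter (isOpen_lt (by fun_prop) continuous_const)).inter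
    (isOpen_lt continuous_const continuous_snd))
    (fun x => convex_iff_ordConnected.2 ⟨fun y hy y' hy' z hz =>
      ⟨⟨hv x y z hy.2 hz.1 hy.1.1, (rd_mono c x (hy.2.trans_le hz.1).le hz.2).trans_lt hy'.1.2⟩,
        lt_of_lt_of_le hy.2 hz.1⟩⟩) ?_
  rw [show Prod.fst '' (O ∩ {q | rd c q < r} ∩ {q | 0 < q.2}) = {x | |x - c| < r} from ?_]
  · exact convex_ball c r
  ext x
  refine ⟨?_, fun hx => ?_⟩
  · rintro ⟨q, hq, rfl⟩
    exact (Real.abs_le_sqrt (le_add_of_nonneg_right (sq_nonneg _))).trans_lt hq.1.2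
  · obtain ⟨t, h1, h2⟩ := exists_between (max_lt hr hx)
    have h3 := (le_max_right _ _).trans_lt h1
    have h4 : 0 < t ^ 2 - (x - c) ^ 2 := by
      rw [sub_pos, sq_lt_sq]; exact h3.trans_le (le_abs_self t)
    have e : rd c (x, √(t ^ 2 - (x - c) ^ 2)) = t := by
      simp only [rd]
      rw [Real.sq_sqrt h4.le, add_sub_cancel, Real.sqrt_sq ((abs_nonneg _).trans h3.le)]
    exact ⟨(x, √(t ^ 2 - (x - c) ^ 2)), ⟨⟨hA _ (Real.sqrt_pos.2 h4)
      (e.symm ▸ (le_max_left _ _).trans_lt h1) (e.symm ▸ h2), e.trans_lt h2⟩, Real.sqrt_pos.2 h4⟩, rfl⟩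

variable {EN HN : Type} [NormedAddCommGroup EN] [NormedSpace ℝ EN] [FiniteDimensional ℝ EN]
  [TopologicalSpace HN] {IN : ModelWithCorners ℝ EN HN} [IN.Boundaryless]
  {N : Type} [TopologicalSpace N] [ChartedSpace HN N] [IsManifold IN ∞ N] [T2Space N]
  (T : Tb IN N) {v : ℝ → Z2} {a b : Z2}

/-- a half disc with holes that touches two rods with determinant `± 1` -/
theorem h1_disc_holes {c r r₀ : ℝ} (hr : r₀ < r) {O : Set (ℝ × ℝ)} (hO : IsOpen O)
    (hv : ∀ x y y', 0 < y → y ≤ y' → (x, y) ∈ O → (x, y') ∈ O)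
    (hA : ∀ q : ℝ × ℝ, 0 < q.2 → r₀ < rd c q → rd c q < r → q ∈ O) (hu : Uni a b) {x y : ℝ}
    (hx : x ∈ Jr v a) (hxO : (x, 0) ∈ O) (hxr : |x - c| < r) (hy : y ∈ Jr v b) (hyO : (y, 0) ∈ O)
    (hyr : |y - c| < r) : H1 G (T.ov v (O ∩ {q | rd c q < r})) :=
  h1_ov T (hO.inter (isOpen_lt (by fun_prop) continuous_const)) (h1_half hr hO hv hA).1
    (h1_half (G := G) hr hO hv hA).2 hu hx ⟨hxO, by simpa [rd, Real.sqrt_sq_eq_abs] using hxr⟩ hy
    ⟨hyO, by simpa [rd, Real.sqrt_sq_eq_abs] using hyr⟩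

theorem h1_disc {c r : ℝ} (hu : Uni a b) {x y : ℝ} (hx : x ∈ Jr v a) (hxr : |x - c| < r)
    (hy : y ∈ Jr v b) (hyr : |y - c| < r) : H1 G (T.disc v c (Iio r)) := by
  have := h1_disc_holes (G := G) T (sub_one_lt r) isOpen_univ (fun _ _ _ _ _ _ => trivial)
    (fun _ _ _ _ => trivial) hu hx trivial hxr hy trivial hyr
  rwa [univ_inter] at this

/-- the complement of finitely many closed half discs -/
def holes {ι : Type*} (c r : ι → ℝ) : Set (ℝ × ℝ) := {q | ∀ i, r i < rd (c i) q}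

theorem isOpen_holes {ι : Type*} [Finite ι] (c r : ι → ℝ) : IsOpen (holes c r) := by
  rw [holes, ofPred_forall]
  exact isOpen_iInter_of_finite fun i => isOpen_lt continuous_const (by fun_prop)

theorem holes_up {ι : Type*} (c r : ι → ℝ) (x y y' : ℝ) (h0 : 0 < y) (h : y ≤ y')
    (k : (x, y) ∈ holes c r) : (x, y') ∈ holes c r := fun i => (k i).trans_le (rd_mono _ x h0.le h)

theorem holes_high {ι : Type*} {c r : ι → ℝ} {R : ℝ} (h : ∀ i, r i ≤ R) (J : Set ℝ) :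
    J ×ˢ Ioi R ⊆ holes c r := fun _ hq i =>
  ((h i).trans_lt hq.2).trans_le (Real.le_sqrt_of_sq_le (le_add_of_nonneg_left (sq_nonneg _)))

theorem rd_eq (c : ℝ) (q : ℝ × ℝ) : rd c q = ‖(⟨q.1 - c, q.2⟩ : ℂ)‖ := by
  rw [Complex.norm_eq_sqrt_sq_add_sq]

theorem holes_ann {ι : Type*} {c r : ι → ℝ} {d r₀ : ℝ} (h : ∀ i, |c i - d| + r i ≤ r₀) (q : ℝ × ℝ)
    (hq : r₀ < rd d q) : q ∈ holes c r := fun i => by
  have := norm_add_le (⟨q.1 - c i, q.2⟩ : ℂ) ((c i - d : ℝ) : ℂ)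
  rw [show (⟨q.1 - c i, q.2⟩ : ℂ) + ((c i - d : ℝ) : ℂ) = ⟨q.1 - d, q.2⟩ from
    Complex.ext (by simp) (by simp), ← rd_eq, ← rd_eq, Complex.norm_real, Real.norm_eq_abs] at this
  linarith [h i]

end Disc

end Crest.Agent.X212.Hz56
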